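import Mathlib

/-!
P304: the cost of serving a finite sequence of requests with `k` labelled servers.
-/

namespace Vale.P304

noncomputable section

variable {X : Type*} {k : ℕ}

/-- The total movement when the `t`-th request is served by moving the server `c t`. -/
def serveCost (d : X → X → ℝ) : (Fin k → X) → List X → (ℕ → Fin k) → ℝ
  | _, [], _ => 0
  | P, r :: σ, c => d (P (c 0)) r +
      serveCost d (Function.update P (c 0) r) σ (fun t => c (t + 1))

/-- The movement of a policy, which picks the server from the requests so far, the current one
last. -/
def policyCost (d : X → X → ℝ) (s : Fin k → X) (σ : List X) (A : List X → Fin k) : ℝ :=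
  serveCost d s σ fun t => A (σ.take (t + 1))

/-- The least movement of a service chosen with the whole sequence known. -/
def optCost (d : X → X → ℝ) (s : Fin k → X) (σ : List X) : ℝ :=
  ⨅ c : ℕ → Fin k, serveCost d s σ c

end

end Vale.P304
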