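import Mathlib

/-!
P304: the law of the random weights.  On the line it is the smooth density proportional to
`exp (-exp (1 / (1 - t ^ 2)))` on `(-1, 1)`; its score is at most `2 V (log V) ^ 2`, where
`exp (-V)` is the density.  A sum of few scores over independent weights is small outside a
rare event, and this bounds the mean derivative of a nonnegative function along any direction
supported on few coordinates.
-/

namespace Vale.P304

open MeasureTheory Filter Finset Topology
open scoped ContDiff

noncomputable section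

/-- The density, up to a constant. -/
def bump1 (t : ℝ) : ℝ := expNegInvGlue (expNegInvGlue (1 - t ^ 2))

/-- Minus the logarithm of the density. -/
def pot1 (t : ℝ) : ℝ := Real.exp (1 - t ^ 2)⁻¹

/-- The score of the density. -/
def score1 (t : ℝ) : ℝ := if t ^ 2 < 1 then pot1 t * (2 * t / (1 - t ^ 2) ^ 2) else 0

lemma bump1_eq {t : ℝ} (ht : t ^ 2 < 1) : bump1 t = Real.exp (-pot1 t) := by
  have h1 : ¬(1 - t ^ 2 ≤ 0) := by linarith
  have h2 : ¬(Real.exp (-(1 - t ^ 2)⁻¹) ≤ 0) := not_le.2 (Real.exp_pos _)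
  rw [bump1, pot1, expNegInvGlue, expNegInvGlue, if_neg h1, if_neg h2,
    ← Real.exp_neg (-(1 - t ^ 2)⁻¹), neg_neg]

lemma bump1_eq_zero {t : ℝ} (ht : 1 ≤ t ^ 2) : bump1 t = 0 := by
  rw [bump1, expNegInvGlue.zero_of_nonpos (expNegInvGlue.zero_of_nonpos (by linarith)).le]

lemma bump1_nonneg (t : ℝ) : 0 ≤ bump1 t := expNegInvGlue.nonneg _

lemma contDiff_bump1 : ContDiff ℝ (1 : ℕ∞) bump1 :=
  expNegInvGlue.contDiff.comp (expNegInvGlue.contDiff.comp (by fun_prop))

@[fun_prop]
lemma continuous_bump1 : Continuous bump1 := contDiff_bump1.continuous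

lemma hasDerivAt_bump1 (t : ℝ) : HasDerivAt bump1 (-(score1 t * bump1 t)) t := by
  by_cases ht : t ^ 2 < 1
  · have hu : (1 - t ^ 2) ≠ 0 := by linarith
    have h1 : HasDerivAt (fun s : ℝ => 1 - s ^ 2) (-(2 * t)) t := by
      simpa using ((hasDerivAt_id t).pow 2).const_sub 1
    have h2 : HasDerivAt (fun s : ℝ => Real.exp (-Real.exp (1 - s ^ 2)⁻¹))
        (Real.exp (-pot1 t) * -(pot1 t * (-(-(2 * t)) / (1 - t ^ 2) ^ 2))) t :=
      ((h1.inv hu).exp.neg).exp
    have hev : bump1 =ᶠ[𝓝 t] fun s => Real.exp (-Real.exp (1 - s ^ 2)⁻¹) := by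
      filter_upwards [(isOpen_lt (continuous_pow 2) continuous_const).mem_nhds ht] with s hs
      exact bump1_eq hs
    refine (h2.congr_of_eventuallyEq hev).congr_deriv ?_
    rw [score1, if_pos ht, bump1_eq ht]
    ring
  · have h0 : bump1 t = 0 := bump1_eq_zero (not_lt.1 ht)
    have hd : DifferentiableAt ℝ bump1 t := (contDiff_bump1.differentiable (by simp)).differentiableAt
    have hmin : IsLocalMin bump1 t := Eventually.of_forall fun s => h0 ▸ bump1_nonneg s
    have := hd.hasDerivAt
    rw [hmin.deriv_eq_zero] at this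
    rwa [h0, mul_zero, neg_zero]

/-- The normalising constant. -/
def mass1 : ℝ := ∫ t, bump1 t

lemma hasCompactSupport_bump1 : HasCompactSupport bump1 :=
  HasCompactSupport.of_support_subset_isCompact (isCompact_Icc (a := -1) (b := 1)) fun t ht => by
    by_contra h
    refine ht (bump1_eq_zero ?_)
    rw [Set.mem_Icc, not_and_or, not_le, not_le] at h
    rcases h with h | h <;> nlinarith

lemma mass1_pos : 0 < mass1 := by
  refine continuous_bump1.integral_pos_of_hasCompactSupport_nonneg_nonzero
    hasCompactSupport_bump1 (fun t => bump1_nonneg t) (x := 0) ?_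
  rw [bump1_eq (by norm_num)]
  exact (Real.exp_pos _).ne'

/-- The normalised density. -/
def dens1 (t : ℝ) : ℝ := bump1 t / mass1

@[fun_prop]
lemma continuous_dens1 : Continuous dens1 := continuous_bump1.div_const _

lemma dens1_nonneg (t : ℝ) : 0 ≤ dens1 t := div_nonneg (bump1_nonneg t) mass1_pos.le

lemma dens1_eq_zero {t : ℝ} (ht : 1 ≤ t ^ 2) : dens1 t = 0 := by
  rw [dens1, bump1_eq_zero ht, zero_div]

lemma integral_dens1 : ∫ t, dens1 t = 1 := by
  simp only [dens1]
  rw [integral_div]
  exact div_self mass1_pos.ne'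

lemma hasDerivAt_dens1 (t : ℝ) : HasDerivAt dens1 (-(score1 t * dens1 t)) t := by
  refine ((hasDerivAt_bump1 t).div_const mass1).congr_deriv ?_
  rw [dens1]
  ring

lemma continuous_score_mul : Continuous fun t => score1 t * dens1 t := by
  have h : (fun t => score1 t * dens1 t) = fun t => -(deriv bump1 t / mass1) := by
    funext t
    rw [(hasDerivAt_bump1 t).deriv, dens1]
    ring
  rw [h]
  exact ((contDiff_bump1.continuous_deriv le_rfl).div_const _).neg

lemma hasCompactSupport_dens1 : HasCompactSupport dens1 :=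
  HasCompactSupport.of_support_subset_isCompact (isCompact_Icc (a := -1) (b := 1)) fun t ht => by
    by_contra h
    refine ht (dens1_eq_zero ?_)
    rw [Set.mem_Icc, not_and_or, not_le, not_le] at h
    rcases h with h | h <;> nlinarith

lemma exists_dens_bound : ∃ B : ℝ, ∀ t, dens1 t ≤ B ∧ |score1 t * dens1 t| ≤ B := by
  obtain ⟨B1, hB1⟩ := continuous_dens1.bounded_above_of_compact_support hasCompactSupport_dens1
  obtain ⟨B2, hB2⟩ := continuous_score_mul.bounded_above_of_compact_support
    (hasCompactSupport_dens1.mul_left)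
  exact ⟨max B1 B2, fun t => ⟨((le_abs_self _).trans (hB1 t)).trans (le_max_left _ _),
    (hB2 t).trans (le_max_right _ _)⟩⟩

@[fun_prop]
lemma measurable_score1 : Measurable score1 := by
  unfold score1 pot1
  exact Measurable.ite (measurableSet_lt (by fun_prop) measurable_const) (by fun_prop)
    measurable_const

lemma score1_neg (t : ℝ) : score1 (-t) = -score1 t := by
  unfold score1 pot1
  rw [neg_sq]
  split_ifs <;> ring

lemma dens1_neg (t : ℝ) : dens1 (-t) = dens1 t := by simp [dens1, bump1]

lemma one_le_pot1 {t : ℝ} (ht : t ^ 2 < 1) : 1 ≤ pot1 t :=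
  Real.one_le_exp (inv_nonneg.2 (by linarith))

lemma abs_score1_le {t : ℝ} (ht : t ^ 2 < 1) :
    |score1 t| ≤ 2 * pot1 t * Real.log (pot1 t) ^ 2 := by
  have hu : 0 < 1 - t ^ 2 := by linarith
  have hlog : Real.log (pot1 t) = (1 - t ^ 2)⁻¹ := by rw [pot1, Real.log_exp]
  have hp : 0 < pot1 t := Real.exp_pos _
  rw [score1, if_pos ht, hlog, abs_mul, abs_div, abs_mul, abs_two, abs_of_pos hp,
    abs_pow, sq_abs, inv_pow, ← div_eq_mul_inv, ← mul_div_assoc]
  gcongr ?_ / _
  have : |t| ≤ 1 := abs_le.2 ⟨by nlinarith, by nlinarith⟩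
  nlinarith

lemma abs_score1_le_exp {t : ℝ} (ht : t ^ 2 < 1) :
    |score1 t| ≤ 256 * Real.exp (pot1 t / 4) := by
  have hp := one_le_pot1 ht
  have h1 : Real.log (pot1 t) ≤ 2 * Real.sqrt (pot1 t) := by
    have := Real.log_le_sub_one_of_pos (Real.sqrt_pos.2 (zero_lt_one.trans_le hp))
    rw [Real.log_sqrt (by linarith)] at this
    linarith
  have h2 : Real.log (pot1 t) ^ 2 ≤ 4 * pot1 t := by
    have := pow_le_pow_left₀ (Real.log_nonneg hp) h1 2
    rw [mul_pow, Real.sq_sqrt (by linarith)] at this
    linarith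
  have h3 : (pot1 t / 4) ^ 2 / 2 ≤ Real.exp (pot1 t / 4) := by
    have := Real.pow_div_factorial_le_exp (x := pot1 t / 4) (by linarith) 2
    simpa using this
  refine (abs_score1_le ht).trans ?_
  nlinarith [mul_le_mul_of_nonneg_left h2 (show (0 : ℝ) ≤ 2 * pot1 t by linarith)]

/-- The score where the potential is at most `M`. -/
def scoreLow (M t : ℝ) : ℝ := if pot1 t ≤ M then score1 t else 0

/-- The score where the potential exceeds `M`. -/
def scoreHigh (M t : ℝ) : ℝ := if pot1 t ≤ M then 0 else |score1 t|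

@[fun_prop]
lemma measurable_scoreLow (M : ℝ) : Measurable (scoreLow M) :=
  Measurable.ite (measurableSet_le (by unfold pot1; fun_prop) measurable_const) measurable_score1
    measurable_const

@[fun_prop]
lemma measurable_scoreHigh (M : ℝ) : Measurable (scoreHigh M) :=
  Measurable.ite (measurableSet_le (by unfold pot1; fun_prop) measurable_const) measurable_const
    measurable_score1.abs

lemma score1_le_split (M t c : ℝ) (hc : |c| ≤ 2) :
    c * score1 t ≤ c * scoreLow M t + 2 * scoreHigh M t := by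
  unfold scoreLow scoreHigh
  split_ifs
  · simp
  · rw [mul_zero, zero_add]
    refine (le_abs_self _).trans ?_
    rw [abs_mul]
    exact mul_le_mul_of_nonneg_right hc (abs_nonneg _)

lemma integrable_dens1_mul {g : ℝ → ℝ} (hg : Measurable g) {B : ℝ}
    (hB : ∀ t, t ^ 2 < 1 → |g t * dens1 t| ≤ B) : Integrable fun t => g t * dens1 t := by
  refine IntegrableOn.integrable_of_forall_notMem_eq_zero (s := Set.Icc (-1 : ℝ) 1) ?_ fun t ht => ?_
  · refine Measure.integrableOn_of_bounded (M := max B 0) (by simp)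
      (by fun_prop : Measurable fun t => g t * dens1 t).aestronglyMeasurable
      (Eventually.of_forall fun t => ?_)
    rw [Real.norm_eq_abs]
    by_cases h : t ^ 2 < 1
    · exact (hB t h).trans (le_max_left _ _)
    · rw [dens1_eq_zero (not_lt.1 h), mul_zero, abs_zero]
      exact le_max_right _ _
  · rw [Set.mem_Icc, not_and_or, not_le, not_le] at ht
    rw [dens1_eq_zero (by rcases ht with h | h <;> nlinarith), mul_zero]

/-- A constant of the law. -/
def lawConst : ℝ := 16 / mass1

lemma lawConst_pos : 0 < lawConst := div_pos (by norm_num) mass1_pos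

lemma integral_le_on_interval {g : ℝ → ℝ} (hg : Integrable g) {B : ℝ} (hB0 : 0 ≤ B)
    (hB : ∀ t, g t ≤ if t ^ 2 < 1 then B else 0) : ∫ t, g t ≤ 2 * B := by
  refine (integral_mono hg ((integrable_indicator_iff measurableSet_Icc).2
    (integrableOn_const (μ := volume) (s := Set.Icc (-1 : ℝ) 1) (C := B) (by simp))) fun t => ?_).trans
    (le_of_eq ?_)
  · refine (hB t).trans ?_
    split_ifs with h
    · rw [Set.indicator_of_mem (Set.mem_Icc.2 ⟨by nlinarith, by nlinarith⟩)]
    · exact Set.indicator_nonneg (fun _ _ => hB0) t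
  · rw [integral_indicator_const _ measurableSet_Icc, Real.volume_real_Icc_of_le (by norm_num)]
    norm_num

lemma integral_scoreHigh_le (M : ℝ) :
    ∫ t, scoreHigh M t * dens1 t ≤ 32 * lawConst * Real.exp (-(3 * M / 4)) := by
  have hpt : ∀ t, scoreHigh M t * dens1 t ≤
      if t ^ 2 < 1 then 256 * Real.exp (-(3 * M / 4)) / mass1 else 0 := by
    intro t
    split_ifs with ht
    · by_cases hM : pot1 t ≤ M
      · rw [scoreHigh, if_pos hM, zero_mul]
        exact div_nonneg (by positivity) mass1_pos.le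
      · rw [scoreHigh, if_neg hM, dens1, bump1_eq ht, ← mul_div_assoc]
        refine div_le_div_of_nonneg_right ?_ mass1_pos.le
        calc |score1 t| * Real.exp (-pot1 t)
            ≤ 256 * Real.exp (pot1 t / 4) * Real.exp (-pot1 t) :=
              mul_le_mul_of_nonneg_right (abs_score1_le_exp ht) (Real.exp_pos _).le
          _ ≤ 256 * Real.exp (-(3 * M / 4)) := by
              rw [mul_assoc, ← Real.exp_add]
              exact mul_le_mul_of_nonneg_left (Real.exp_le_exp.2 (by linarith [not_le.1 hM]))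
                (by norm_num)
    · rw [dens1_eq_zero (not_lt.1 ht), mul_zero]
  obtain ⟨B, hB⟩ := exists_dens_bound
  refine (integral_le_on_interval (integrable_dens1_mul (by fun_prop) (B := B) fun t _ => ?_)
    (div_nonneg (by positivity) mass1_pos.le) hpt).trans (le_of_eq ?_)
  · refine le_trans ?_ (hB t).2
    rw [abs_mul, abs_mul]
    refine mul_le_mul_of_nonneg_right ?_ (abs_nonneg _)
    unfold scoreHigh
    split_ifs <;> simp
  · rw [lawConst]; ring

lemma exp_le_quadratic (x : ℝ) : Real.exp x ≤ 1 + x + x ^ 2 * Real.exp |x| := by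
  have h1 : 1 ≤ Real.exp |x| := Real.one_le_exp (abs_nonneg x)
  rcases le_or_gt |x| 1 with h | h
  · have := (abs_le.1 (Real.abs_exp_sub_one_sub_id_le h)).2
    nlinarith [sq_nonneg x]
  · have hx2 : 1 ≤ x ^ 2 := by rw [← sq_abs]; nlinarith
    rcases le_or_gt 0 x with hx | hx
    · rw [abs_of_nonneg hx] at h1 ⊢
      nlinarith
    · have h2 : Real.exp x ≤ 1 := Real.exp_le_one_iff.2 hx.le
      rw [abs_of_neg hx] at h h1
      rw [abs_of_neg hx]
      nlinarith

/-- The moment generating function of one truncated score. -/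
lemma mgf_scoreLow {M lam c : ℝ} (hM : 1 ≤ Real.log M) (hl : 0 ≤ lam) (hl' : lam ≤ 1 / 2)
    (hc : |c| ≤ 2) :
    ∫ t, Real.exp (lam / (8 * Real.log M ^ 2) * c * scoreLow M t) * dens1 t ≤
      1 + lawConst * lam ^ 2 := by
  set s := lam / (8 * Real.log M ^ 2)
  set x : ℝ → ℝ := fun t => s * c * scoreLow M t with hx
  have hy : ∀ t, t ^ 2 < 1 → |x t| ≤ 2 * lam * (pot1 t / 4) := by
    intro t ht
    rw [hx]
    simp only
    unfold scoreLow
    split_ifs with hM'
    · have h1 := abs_score1_le ht
      have hp := one_le_pot1 ht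
      have hlog : Real.log (pot1 t) ^ 2 ≤ Real.log M ^ 2 :=
        pow_le_pow_left₀ (Real.log_nonneg hp) (Real.log_le_log (by linarith) hM') 2
      have hs : 0 ≤ s := div_nonneg hl (by positivity)
      rw [abs_mul, abs_mul, abs_of_nonneg hs]
      calc s * |c| * |score1 t| ≤ s * 2 * (2 * pot1 t * Real.log M ^ 2) := by
            refine mul_le_mul (mul_le_mul_of_nonneg_left hc hs) ?_ (abs_nonneg _) (by positivity)
            exact h1.trans (mul_le_mul_of_nonneg_left hlog (by linarith))
        _ = 2 * lam * (pot1 t / 4) := by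
            have : Real.log M ≠ 0 := by linarith
            simp only [s]
            field_simp
            ring
    · rw [mul_zero, abs_zero]
      have := one_le_pot1 ht
      positivity
  have hquad : ∀ t, t ^ 2 < 1 → x t ^ 2 * Real.exp |x t| * dens1 t ≤ 8 * lam ^ 2 / mass1 := by
    intro t ht
    have hp := one_le_pot1 ht
    set y := pot1 t / 4 with hy'
    have hy0 : 0 ≤ y := by rw [hy']; linarith
    have h1 : x t ^ 2 ≤ 4 * lam ^ 2 * (2 * Real.exp y) := by
      rw [← sq_abs]
      refine (pow_le_pow_left₀ (abs_nonneg _) (hy t ht) 2).trans ?_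
      have h2 : y ^ 2 / 2 ≤ Real.exp y := by
        simpa using Real.pow_div_factorial_le_exp (x := y) hy0 2
      rw [show (2 * lam * y) ^ 2 = 4 * lam ^ 2 * y ^ 2 by ring]
      exact mul_le_mul_of_nonneg_left (by linarith) (by positivity)
    have h2 : Real.exp |x t| ≤ Real.exp y :=
      Real.exp_le_exp.2 ((hy t ht).trans (by nlinarith))
    rw [dens1, bump1_eq ht, ← mul_div_assoc]
    refine div_le_div_of_nonneg_right ?_ mass1_pos.le
    calc x t ^ 2 * Real.exp |x t| * Real.exp (-pot1 t)
        ≤ 4 * lam ^ 2 * (2 * Real.exp y) * Real.exp y * Real.exp (-pot1 t) := by gcongr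
      _ = 8 * lam ^ 2 * (Real.exp y * Real.exp y * Real.exp (-pot1 t)) := by ring
      _ ≤ 8 * lam ^ 2 * 1 := by
          refine mul_le_mul_of_nonneg_left ?_ (by positivity)
          rw [← Real.exp_add, ← Real.exp_add, Real.exp_le_one_iff, hy']
          linarith
      _ = 8 * lam ^ 2 := mul_one _
  have hxm : Measurable x := by fun_prop
  obtain ⟨B, hB⟩ := exists_dens_bound
  have i0 : Integrable dens1 := continuous_dens1.integrable_of_hasCompactSupport hasCompactSupport_dens1
  have i1 : Integrable fun t => x t * dens1 t := by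
    refine integrable_dens1_mul hxm (B := |s * c| * B) fun t _ => ?_
    rw [hx]
    simp only
    rw [mul_assoc (s * c), abs_mul]
    refine mul_le_mul_of_nonneg_left (le_trans ?_ (hB t).2) (abs_nonneg _)
    rw [abs_mul, abs_mul]
    refine mul_le_mul_of_nonneg_right ?_ (abs_nonneg _)
    unfold scoreLow
    split_ifs <;> simp
  have i2 : Integrable fun t => x t ^ 2 * Real.exp |x t| * dens1 t :=
    integrable_dens1_mul (by fun_prop) fun t ht => by
      rw [abs_of_nonneg (mul_nonneg (by positivity) (dens1_nonneg t))]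
      exact hquad t ht
  have i3 : Integrable fun t => Real.exp (x t) * dens1 t := by
    refine integrable_dens1_mul (by fun_prop) (B := Real.exp (max M 0 / 4) * B) fun t ht => ?_
    rw [abs_mul, Real.abs_exp, abs_of_nonneg (dens1_nonneg t)]
    refine mul_le_mul (Real.exp_le_exp.2 ?_) (hB t).1 (dens1_nonneg t) (Real.exp_pos _).le
    refine (le_abs_self _).trans ?_
    by_cases hM' : pot1 t ≤ M
    · refine (hy t ht).trans ?_
      have := one_le_pot1 ht
      nlinarith [le_max_left M 0]
    · have : x t = 0 := by simp [hx, scoreLow, hM']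
      rw [this, abs_zero]
      linarith [le_max_right M 0]
  have hodd : ∫ t, x t * dens1 t = 0 := by
    have h : ∫ t, x (-t) * dens1 (-t) = ∫ t, x t * dens1 t :=
      integral_neg_eq_self (fun t => x t * dens1 t) volume
    have h' : ∀ t, x (-t) * dens1 (-t) = -(x t * dens1 t) := fun t => by
      simp only [hx, scoreLow, score1_neg, dens1_neg, show pot1 (-t) = pot1 t by simp [pot1]]
      split_ifs <;> ring
    simp only [h', integral_neg] at h
    linarith
  calc ∫ t, Real.exp (x t) * dens1 t
      ≤ ∫ t, ((dens1 t + x t * dens1 t) + x t ^ 2 * Real.exp |x t| * dens1 t) := by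
        refine integral_mono i3 ((i0.add i1).add i2) fun t => ?_
        have := mul_le_mul_of_nonneg_right (exp_le_quadratic (x t)) (dens1_nonneg t)
        linarith [show (1 + x t + x t ^ 2 * Real.exp |x t|) * dens1 t =
          dens1 t + x t * dens1 t + x t ^ 2 * Real.exp |x t| * dens1 t by ring]
    _ = 1 + ∫ t, x t ^ 2 * Real.exp |x t| * dens1 t := by
        rw [integral_add (f := fun t => dens1 t + x t * dens1 t) (i0.add i1) i2,
          integral_add i0 i1, integral_dens1, hodd, add_zero]
    _ ≤ 1 + lawConst * lam ^ 2 := by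
        refine add_le_add le_rfl ((integral_le_on_interval i2
          (div_nonneg (by positivity) mass1_pos.le : 0 ≤ 8 * lam ^ 2 / mass1) fun t => ?_).trans
            (le_of_eq (by rw [lawConst]; ring)))
        split_ifs with ht
        · exact hquad t ht
        · rw [dens1_eq_zero (not_lt.1 ht), mul_zero]

/-! ### Several coordinates -/

variable {κ : Type*} [Fintype κ]

/-- The joint density. -/
def dens (θ : κ → ℝ) : ℝ := ∏ j, dens1 (θ j)

/-- The score along `c`. -/
def score (c θ : κ → ℝ) : ℝ := ∑ j, c j * score1 (θ j)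

lemma dens_nonneg (θ : κ → ℝ) : 0 ≤ dens θ := prod_nonneg fun j _ => dens1_nonneg _

lemma integral_dens : ∫ θ : κ → ℝ, dens θ = 1 := by
  simp only [dens]
  rw [integral_fintype_prod_volume_eq_prod]
  exact prod_eq_one fun _ _ => integral_dens1

lemma dens_eq_zero {θ : κ → ℝ} (h : ∃ j, 1 ≤ θ j ^ 2) : dens θ = 0 := by
  obtain ⟨j, hj⟩ := h
  exact prod_eq_zero (mem_univ j) (dens1_eq_zero hj)

lemma sq_lt_one_of_dens {θ : κ → ℝ} (h : dens θ ≠ 0) (j : κ) : θ j ^ 2 < 1 := by
  by_contra hj
  exact h (dens_eq_zero ⟨j, not_lt.1 hj⟩)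

@[fun_prop]
lemma continuous_dens : Continuous (dens (κ := κ)) := by unfold dens; fun_prop

@[fun_prop]
lemma measurable_score (c : κ → ℝ) : Measurable (score c) := by unfold score; fun_prop

lemma integrable_of_cube {g : (κ → ℝ) → ℝ} (hg : Measurable g) {R B : ℝ}
    (h0 : ∀ θ, (∃ j, R < |θ j|) → g θ = 0) (hB : ∀ θ, |g θ| ≤ B) : Integrable g := by
  refine IntegrableOn.integrable_of_forall_notMem_eq_zero
    (s := Set.Icc (fun _ : κ => -R) (fun _ : κ => R)) ?_ fun θ hθ => ?_
  · exact Measure.integrableOn_of_bounded (M := B) isCompact_Icc.measure_lt_top.ne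
      hg.aestronglyMeasurable (Eventually.of_forall fun θ => hB θ)
  · refine h0 θ ?_
    by_contra hc
    push Not at hc
    exact hθ ⟨fun j => (abs_le.1 (hc j)).1, fun j => (abs_le.1 (hc j)).2⟩

lemma one_le_sq_of_one_lt_abs {t : ℝ} (h : 1 < |t|) : 1 ≤ t ^ 2 := by
  rw [← sq_abs]; nlinarith

lemma integrable_mul_dens {g : (κ → ℝ) → ℝ} (hg : Measurable g) {B : ℝ}
    (hB : ∀ θ, |g θ * dens θ| ≤ B) : Integrable fun θ => g θ * dens θ :=
  integrable_of_cube (by fun_prop) (R := 1) (fun θ ⟨j, hj⟩ => by
    rw [dens_eq_zero ⟨j, one_le_sq_of_one_lt_abs hj⟩, mul_zero]) hB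

/-- The mean derivative of a function along `c` is its mean against the score. -/
theorem mean_slope_le {F a b : (κ → ℝ) → ℝ} (hF : Continuous F) (ha : Measurable a)
    (hb : Measurable b) {Ca : ℝ} (hCa : ∀ θ, |a θ| ≤ Ca) (hCb : ∀ θ, |b θ| ≤ Ca) (c : κ → ℝ)
    (h : ∀ (θ : κ → ℝ) (u : ℝ), 0 ≤ u → u * (a (θ + u • c) - b θ) ≤ F (θ + u • c) - F θ) :
    ∫ θ, (a θ - b θ) * dens θ ≤ ∫ θ, F θ * score c θ * dens θ := by
  classical
  obtain ⟨B, hB⟩ := exists_dens_bound
  have hB0 : 0 ≤ B := (dens1_nonneg 0).trans (hB 0).1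
  set R : ℝ := 1 + ∑ j, |c j| with hR
  have hcR : ∀ j, |c j| ≤ ∑ i, |c i| := fun j =>
    single_le_sum (fun i _ => abs_nonneg (c i)) (mem_univ j)
  obtain ⟨CF, hCF⟩ := (isCompact_Icc (a := fun _ : κ => -R) (b := fun _ : κ => R)).exists_bound_of_continuousOn
    hF.continuousOn
  have hCa0 : 0 ≤ Ca := (abs_nonneg _).trans (hCa (fun _ => 0))
  -- outside the cube everything vanishes
  have hout : ∀ (θ : κ → ℝ) (u : ℝ), |u| ≤ 1 → (∃ j, R < |θ j|) → ∃ j, 1 ≤ (θ - u • c) j ^ 2 := by
    rintro θ u hu ⟨j, hj⟩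
    refine ⟨j, one_le_sq_of_one_lt_abs ?_⟩
    have h1 : |u * c j| ≤ ∑ i, |c i| := by
      rw [abs_mul]
      exact (mul_le_of_le_one_left (abs_nonneg _) hu).trans (hcR j)
    simp only [Pi.sub_apply, Pi.smul_apply, smul_eq_mul]
    have := abs_sub_abs_le_abs_sub (θ j) (u * c j)
    linarith
  have hmem : ∀ θ : κ → ℝ, (¬∃ j, R < |θ j|) → θ ∈ Set.Icc (fun _ : κ => -R) (fun _ : κ => R) :=
    fun θ hθ => by
      push Not at hθ
      exact ⟨fun j => (abs_le.1 (hθ j)).1, fun j => (abs_le.1 (hθ j)).2⟩
  set G : ℝ → (κ → ℝ) → ℝ := fun u θ => F θ * dens (θ - u • c) with hG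
  set G' : ℝ → (κ → ℝ) → ℝ := fun u θ => F θ * (score c (θ - u • c) * dens (θ - u • c)) with hG'
  set K : ℝ := (∑ j, |c j|) * B ^ (Fintype.card κ)
  have hKb : ∀ θ, |score c θ * dens θ| ≤ K := by
    intro θ
    rw [score, sum_mul]
    refine (abs_sum_le_sum_abs _ _).trans ?_
    rw [show K = ∑ j, |c j| * B ^ (Fintype.card κ) from sum_mul _ _ _]
    refine sum_le_sum fun j _ => ?_
    rw [dens, ← mul_prod_erase _ _ (mem_univ j), mul_assoc, abs_mul]
    refine mul_le_mul_of_nonneg_left ?_ (abs_nonneg _)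
    rw [← mul_assoc, abs_mul, abs_of_nonneg (prod_nonneg fun i _ => dens1_nonneg (θ i))]
    refine (mul_le_mul (hB _).2 (prod_le_prod (fun i _ => dens1_nonneg _) fun i _ => (hB _).1)
      (prod_nonneg fun i _ => dens1_nonneg _) hB0).trans (le_of_eq ?_)
    rw [prod_const, card_erase_of_mem (mem_univ j), card_univ, ← pow_succ',
      Nat.sub_add_cancel (Fintype.card_pos_iff.2 ⟨j⟩)]
  have hdb : ∀ θ : κ → ℝ, |dens θ| ≤ B ^ Fintype.card κ := fun θ => by
    rw [abs_of_nonneg (dens_nonneg θ)]
    exact (prod_le_prod (fun i _ => dens1_nonneg _) fun i _ => (hB _).1).trans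
      (le_of_eq (by rw [prod_const, card_univ]))
  set bound : (κ → ℝ) → ℝ :=
    (Set.Icc (fun _ : κ => -R) (fun _ : κ => R)).indicator fun _ => max CF 0 * K with hbound
  have hGint : ∀ u, |u| ≤ 1 → Integrable (G u) := fun u hu => by
    refine integrable_of_cube (by fun_prop) (R := R) (fun θ hθ => ?_)
      (B := max CF 0 * B ^ Fintype.card κ) fun θ => ?_
    · rw [hG]; simp only
      rw [dens_eq_zero (hout θ u hu hθ), mul_zero]
    · rw [hG]; simp only
      by_cases hθ : ∃ j, R < |θ j|
      · rw [dens_eq_zero (hout θ u hu hθ), mul_zero, abs_zero]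
        positivity
      · rw [abs_mul]
        exact mul_le_mul ((hCF θ (hmem θ hθ)).trans (le_max_left _ _)) (hdb _) (abs_nonneg _)
          (le_max_right _ _)
  have hder : HasDerivAt (fun u => ∫ θ, G u θ) (∫ θ, G' 0 θ) 0 := by
    refine (hasDerivAt_integral_of_dominated_loc_of_deriv_le (bound := bound)
      (s := Set.Icc (-1 : ℝ) 1) (Icc_mem_nhds (by norm_num) (by norm_num))
      (Eventually.of_forall fun u => (by fun_prop : Measurable (G u)).aestronglyMeasurable)
      (hGint 0 (by simp)) (by fun_prop : Measurable (G' 0)).aestronglyMeasurable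
      (Eventually.of_forall fun θ u hu => ?_) ?_ (Eventually.of_forall fun θ u hu => ?_)).2
    · rw [Real.norm_eq_abs, hG', hbound]
      simp only
      by_cases hθ : ∃ j, R < |θ j|
      · rw [dens_eq_zero (hout θ u (abs_le.2 hu) hθ), mul_zero, mul_zero, abs_zero]
        exact Set.indicator_nonneg (fun _ _ => mul_nonneg (le_max_right _ _)
          ((abs_nonneg _).trans (hKb θ))) θ
      · rw [Set.indicator_of_mem (hmem θ hθ), abs_mul]
        exact mul_le_mul ((hCF θ (hmem θ hθ)).trans (le_max_left _ _)) (hKb _) (abs_nonneg _)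
          (le_max_right _ _)
    · exact (integrable_indicator_iff measurableSet_Icc).2
        (integrableOn_const isCompact_Icc.measure_lt_top.ne)
    · rw [hG, hG']
      simp only
      refine (HasDerivAt.const_mul (F θ) ?_)
      have hj : ∀ j ∈ (univ : Finset κ), HasDerivAt (fun u => dens1 ((θ - u • c) j))
          (c j * (score1 ((θ - u • c) j) * dens1 ((θ - u • c) j))) u := fun j _ => by
        simp only [Pi.sub_apply, Pi.smul_apply, smul_eq_mul]
        have h1 : HasDerivAt (fun v : ℝ => θ j - v * c j) (-(c j)) u := by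
          simpa using ((hasDerivAt_id u).mul_const (c j)).const_sub (θ j)
        refine ((hasDerivAt_dens1 _).comp u h1).congr_deriv ?_
        ring
      refine (HasDerivAt.fun_finsetProd hj).congr_deriv ?_
      rw [score, sum_mul]
      refine sum_congr rfl fun j _ => ?_
      rw [smul_eq_mul, dens, ← mul_prod_erase univ (fun i => dens1 ((θ - u • c) i)) (mem_univ j)]
      ring
  -- the difference quotient
  set A : ℝ → ℝ := fun u => ∫ θ, a θ * dens (θ - u • c) with hA
  have hAc : ContinuousAt A 0 := by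
    refine continuousAt_of_dominated
      (bound := (Set.Icc (fun _ : κ => -R) (fun _ : κ => R)).indicator fun _ => Ca * B ^ Fintype.card κ)
      (Eventually.of_forall fun u => (by fun_prop : Measurable fun θ => a θ * dens (θ - u • c)).aestronglyMeasurable)
      ?_ ((integrable_indicator_iff measurableSet_Icc).2
        (integrableOn_const isCompact_Icc.measure_lt_top.ne))
      (Eventually.of_forall fun θ => by fun_prop)
    filter_upwards [Icc_mem_nhds (show (-1 : ℝ) < 0 by norm_num) (show (0 : ℝ) < 1 by norm_num)]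
      with u hu
    refine Eventually.of_forall fun θ => ?_
    rw [Real.norm_eq_abs]
    by_cases hθ : ∃ j, R < |θ j|
    · rw [dens_eq_zero (hout θ u (abs_le.2 hu) hθ), mul_zero, abs_zero]
      exact Set.indicator_nonneg (fun _ _ => mul_nonneg hCa0 (pow_nonneg hB0 _)) θ
    · rw [Set.indicator_of_mem (hmem θ hθ), abs_mul]
      exact mul_le_mul (hCa θ) (hdb _) (abs_nonneg _) hCa0
  have hia : Integrable fun θ => a θ * dens θ :=
    integrable_mul_dens ha fun θ => by
      rw [abs_mul]; exact mul_le_mul (hCa θ) (hdb θ) (abs_nonneg _) hCa0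
  have hib : Integrable fun θ => b θ * dens θ :=
    integrable_mul_dens hb fun θ => by
      rw [abs_mul]; exact mul_le_mul (hCb θ) (hdb θ) (abs_nonneg _) hCa0
  have hquot : ∀ u ∈ Set.Ioc (0 : ℝ) 1,
      A u - ∫ θ, b θ * dens θ ≤ ((∫ θ, G u θ) - ∫ θ, G 0 θ) / u := by
    intro u hu
    have hu1 : |u| ≤ 1 := by rw [abs_of_pos hu.1]; exact hu.2
    rw [le_div_iff₀ hu.1, hA]
    simp only
    have e0 : ∫ θ, a θ * dens (θ - u • c) = ∫ θ, a (θ + u • c) * dens θ := by
      rw [← integral_add_right_eq_self (fun θ => a θ * dens (θ - u • c)) (u • c)]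
      simp only [add_sub_cancel_right]
    have e1 : ∫ θ, G u θ = ∫ θ, F (θ + u • c) * dens θ := by
      rw [hG]; simp only
      rw [← integral_add_right_eq_self (fun θ => F θ * dens (θ - u • c)) (u • c)]
      simp only [add_sub_cancel_right]
    have i1 : Integrable fun θ => a (θ + u • c) * dens θ :=
      integrable_mul_dens (ha.comp (by fun_prop)) fun θ => by
        rw [abs_mul]; exact mul_le_mul (hCa _) (hdb θ) (abs_nonneg _) hCa0
    have i2 : Integrable fun θ => F (θ + u • c) * dens θ := by
      have := (hGint u hu1).comp_add_right (u • c)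
      simpa [hG] using this
    have i3 : Integrable fun θ => F θ * dens θ := by simpa [hG] using hGint 0 (by simp)
    rw [e0, e1, hG]
    simp only [zero_smul, sub_zero]
    rw [← integral_sub i1 hib, ← integral_sub i2 i3, ← integral_mul_const]
    refine integral_mono ((i1.sub hib).mul_const u) (i2.sub i3) fun θ => ?_
    have := mul_le_mul_of_nonneg_right (h θ u hu.1.le) (dens_nonneg θ)
    simp only
    linarith
  have hlim1 : Tendsto (fun u => A u - ∫ θ, b θ * dens θ) (𝓝[>] 0)
      (𝓝 ((∫ θ, a θ * dens θ) - ∫ θ, b θ * dens θ)) := by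
    have := (hAc.tendsto.mono_left (nhdsWithin_le_nhds (s := Set.Ioi (0 : ℝ)))).sub_const
      (∫ θ, b θ * dens θ)
    simpa [hA] using this
  have hlim2 : Tendsto (fun u => ((∫ θ, G u θ) - ∫ θ, G 0 θ) / u) (𝓝[>] 0)
      (𝓝 (∫ θ, G' 0 θ)) := by
    have := hder.tendsto_slope_zero_right
    simpa [div_eq_inv_mul, smul_eq_mul] using this
  have key := le_of_tendsto_of_tendsto hlim1 hlim2 (by
    filter_upwards [Ioc_mem_nhdsGT zero_lt_one] with u hu using hquot u hu)
  rw [← integral_sub hia hib] at key
  simpa [hG', sub_mul, mul_assoc] using key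

/-- The bound on the score. -/
def scoreBound (J l : ℝ) : ℝ :=
  8 * Real.log (2 * l + 2 * Real.log (J + 1) + 4) ^ 2 * (lawConst + 2) * (Real.sqrt (J * l) + l)

/-- A sum of at most `J` scores exceeds `scoreBound J l` only by `exp (-l)` on average. -/
theorem mean_score_le {F : (κ → ℝ) → ℝ} (hF : Continuous F) {D : ℝ} (hD : 0 ≤ D)
    (hF0 : ∀ θ, dens θ ≠ 0 → 0 ≤ F θ ∧ F θ ≤ D) (c : κ → ℝ) (hc : ∀ j, |c j| ≤ 2) {J l : ℝ}
    (hJ : ((univ.filter fun j => c j ≠ 0).card : ℝ) ≤ J) (hl : 1 ≤ l) :
    ∫ θ, F θ * score c θ * dens θ ≤ scoreBound J l * (∫ θ, F θ * dens θ) +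
      D * ((scoreBound J l + 64 * lawConst) * Real.exp (-l)) := by
  classical
  set s₀ : Finset κ := univ.filter fun j => c j ≠ 0
  have hJ0 : 0 ≤ J := (Nat.cast_nonneg _).trans hJ
  set M : ℝ := 2 * l + 2 * Real.log (J + 1) + 4 with hM
  have hlogJ : 0 ≤ Real.log (J + 1) := Real.log_nonneg (by linarith)
  have hM1 : 1 ≤ Real.log M := by
    rw [Real.le_log_iff_exp_le (by rw [hM]; linarith)]
    linarith [Real.exp_one_lt_d9]
  set lam : ℝ := Real.sqrt (l / (J + l)) / 2 with hlam
  have hlpos : 0 < lam := by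
    rw [hlam]
    have : 0 < l / (J + l) := by positivity
    positivity
  have hl2 : lam ≤ 1 / 2 := by
    rw [hlam]
    have : Real.sqrt (l / (J + l)) ≤ 1 := by
      rw [Real.sqrt_le_one, div_le_one (by linarith)]
      linarith
    linarith
  set s : ℝ := lam / (8 * Real.log M ^ 2) with hs
  have hspos : 0 < s := div_pos hlpos (by positivity)
  set L := scoreBound J l with hL
  have hLs : (s₀.card : ℝ) * (lawConst * lam ^ 2) + l ≤ s * L := by
    have e : s * L = lam * (lawConst + 2) * (Real.sqrt (J * l) + l) := by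
      rw [hs, hL, scoreBound, ← hM]
      field_simp
    rw [e]
    have hk : lam * Real.sqrt (J + l) = Real.sqrt l / 2 := by
      rw [hlam, Real.sqrt_div (by linarith)]
      field_simp
    have hsum : Real.sqrt (J + l) ≤ Real.sqrt J + Real.sqrt l := by
      rw [Real.sqrt_le_iff]
      refine ⟨by positivity, ?_⟩
      nlinarith [Real.sq_sqrt hJ0, Real.sq_sqrt (show (0 : ℝ) ≤ l by linarith),
        Real.sqrt_nonneg J, Real.sqrt_nonneg l]
    have h1 : J * lam ≤ Real.sqrt (J * l) / 2 := by
      rw [Real.sqrt_mul hJ0]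
      have h2 : Real.sqrt J ≤ Real.sqrt (J + l) := Real.sqrt_le_sqrt (by linarith)
      calc J * lam = Real.sqrt J * (lam * Real.sqrt J) := by
            rw [mul_comm lam, ← mul_assoc, Real.mul_self_sqrt hJ0]
        _ ≤ Real.sqrt J * (lam * Real.sqrt (J + l)) := by gcongr
        _ = Real.sqrt J * Real.sqrt l / 2 := by rw [hk]; ring
    have h3 : l ≤ lam * 2 * (Real.sqrt (J * l) + l) := by
      calc l = 2 * (lam * Real.sqrt (J + l)) * Real.sqrt l := by
            rw [hk]; linear_combination -(Real.mul_self_sqrt (show (0 : ℝ) ≤ l by linarith))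
        _ ≤ 2 * (lam * (Real.sqrt J + Real.sqrt l)) * Real.sqrt l := by gcongr
        _ = lam * 2 * (Real.sqrt (J * l) + l) := by
            rw [Real.sqrt_mul hJ0]
            linear_combination (2 * lam) * (Real.mul_self_sqrt (show (0 : ℝ) ≤ l by linarith))
    nlinarith [mul_le_mul_of_nonneg_right hJ (mul_nonneg lawConst_pos.le (sq_nonneg lam)),
      mul_le_mul_of_nonneg_left h1 (mul_nonneg lawConst_pos.le hlpos.le),
      mul_nonneg (mul_nonneg lawConst_pos.le hlpos.le) (show (0 : ℝ) ≤ l by linarith),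
      Real.sqrt_nonneg (J * l)]
  have hLinv : 1 / s ≤ L := by
    rw [div_le_iff₀ hspos]
    nlinarith [mul_nonneg (Nat.cast_nonneg s₀.card) (mul_nonneg lawConst_pos.le (sq_nonneg lam))]
  -- the three functions
  set E : (κ → ℝ) → ℝ := fun θ => ∏ j, Real.exp (s * c j * scoreLow M (θ j)) * dens1 (θ j) with hE
  set H : κ → (κ → ℝ) → ℝ := fun j θ =>
    ∏ i, (if i = j then scoreHigh M (θ i) else 1) * dens1 (θ i) with hH
  have hHeq : ∀ j θ, H j θ = scoreHigh M (θ j) * dens θ := fun j θ => by
    rw [hH]; simp only [prod_mul_distrib, prod_ite_eq', mem_univ, if_true, dens]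
  have hEeq : ∀ θ, E θ = Real.exp (s * ∑ j, c j * scoreLow M (θ j)) * dens θ := fun θ => by
    rw [hE]
    simp only [prod_mul_distrib, ← Real.exp_sum, dens, mul_sum, mul_assoc]
  obtain ⟨B, hB⟩ := exists_dens_bound
  have hlow : ∀ t, |scoreLow M t| ≤ 2 * M * Real.log M ^ 2 := fun t => by
    have hM0 : 0 ≤ M := by rw [hM]; linarith
    unfold scoreLow
    split_ifs with hpm
    · by_cases ht : t ^ 2 < 1
      · refine (abs_score1_le ht).trans (mul_le_mul (by linarith) ?_ (sq_nonneg _) (by linarith))
        exact pow_le_pow_left₀ (Real.log_nonneg (one_le_pot1 ht))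
          (Real.log_le_log (Real.exp_pos _) hpm) 2
      · rw [score1, if_neg ht, abs_zero]
        positivity
    · rw [abs_zero]
      positivity
  have hiE : ∀ j, Integrable fun t => Real.exp (s * c j * scoreLow M t) * dens1 t := fun j => by
    refine integrable_dens1_mul (by fun_prop)
      (B := Real.exp (|s * c j| * (2 * M * Real.log M ^ 2)) * B) fun t _ => ?_
    rw [abs_mul, Real.abs_exp, abs_of_nonneg (dens1_nonneg t)]
    refine mul_le_mul (Real.exp_le_exp.2 ((le_abs_self _).trans ?_)) (hB t).1 (dens1_nonneg t)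
      (Real.exp_pos _).le
    rw [abs_mul]
    exact mul_le_mul_of_nonneg_left (hlow t) (abs_nonneg _)
  have hiH : Integrable fun t => scoreHigh M t * dens1 t := by
    refine integrable_dens1_mul (by fun_prop) (B := B) fun t _ => le_trans ?_ (hB t).2
    rw [abs_mul, abs_mul]
    refine mul_le_mul_of_nonneg_right ?_ (abs_nonneg _)
    unfold scoreHigh
    split_ifs <;> simp
  have hEint : Integrable E := Integrable.fintype_prod (μ := fun _ : κ => (volume : Measure ℝ))
    (f := fun j t => Real.exp (s * c j * scoreLow M t) * dens1 t) fun j => hiE j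
  have hHint : ∀ j, Integrable (H j) := fun j => by
    refine Integrable.fintype_prod (μ := fun _ : κ => (volume : Measure ℝ))
      (f := fun i t => (if i = j then scoreHigh M t else 1) * dens1 t) fun i => ?_
    by_cases hij : i = j
    · simpa [hij] using hiH
    · simpa [hij] using continuous_dens1.integrable_of_hasCompactSupport hasCompactSupport_dens1
  have hEle : ∫ θ, E θ ≤ Real.exp (s * L - l) := by
    rw [hE, integral_fintype_prod_volume_eq_prod (E := fun _ : κ => ℝ)
      fun j t => Real.exp (s * c j * scoreLow M t) * dens1 t]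
    calc ∏ j, ∫ t, Real.exp (s * c j * scoreLow M t) * dens1 t
        ≤ ∏ j, if c j = 0 then 1 else Real.exp (lawConst * lam ^ 2) := by
          refine prod_le_prod (fun j _ => integral_nonneg fun t => ?_) fun j _ => ?_
          · exact mul_nonneg (Real.exp_pos _).le (dens1_nonneg t)
          · split_ifs with hj
            · simp [hj, integral_dens1]
            · exact (mgf_scoreLow hM1 hlpos.le hl2 (hc j)).trans
                (by linarith [Real.add_one_le_exp (lawConst * lam ^ 2)])
      _ = Real.exp ((s₀.card : ℝ) * (lawConst * lam ^ 2)) := by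
          rw [prod_ite, prod_const_one, one_mul, prod_const, ← Real.exp_nat_mul]
      _ ≤ Real.exp (s * L - l) := Real.exp_le_exp.2 (by linarith)
  have hHle : ∀ j, ∫ θ, H j θ ≤ 32 * lawConst * Real.exp (-(3 * M / 4)) := fun j => by
    rw [hH, integral_fintype_prod_volume_eq_prod (E := fun _ : κ => ℝ)
        fun i t => (if i = j then scoreHigh M t else 1) * dens1 t,
      ← mul_prod_erase _ _ (mem_univ j), prod_eq_one fun i hi => ?_, mul_one]
    · simpa using integral_scoreHigh_le M
    · simp [(mem_erase.1 hi).1, integral_dens1]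
  have htail : (s₀.card : ℝ) * (2 * (32 * lawConst * Real.exp (-(3 * M / 4)))) ≤
      64 * lawConst * Real.exp (-l) := by
    have h1 : (J + 1) * Real.exp (-(3 * M / 4)) ≤ Real.exp (-l) := by
      calc (J + 1) * Real.exp (-(3 * M / 4)) =
          Real.exp (Real.log (J + 1) + -(3 * M / 4)) := by
            rw [Real.exp_add, Real.exp_log (by linarith)]
        _ ≤ Real.exp (-l) := Real.exp_le_exp.2 (by rw [hM]; linarith)
    have := lawConst_pos
    calc (s₀.card : ℝ) * (2 * (32 * lawConst * Real.exp (-(3 * M / 4))))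
        ≤ (J + 1) * (2 * (32 * lawConst * Real.exp (-(3 * M / 4)))) := by gcongr; linarith
      _ ≤ 64 * lawConst * Real.exp (-l) := by nlinarith
  -- compare pointwise
  have hpt : ∀ θ, F θ * score c θ * dens θ ≤ L * (F θ * dens θ) +
      (D / s * Real.exp (-(s * L)) * E θ + D * ∑ j ∈ s₀, 2 * H j θ) := by
    intro θ
    rcases eq_or_ne (dens θ) 0 with h0 | h0
    · simp [h0, hEeq, hHeq]
    obtain ⟨hF1, hF2⟩ := hF0 θ h0
    set P := ∑ j, c j * scoreLow M (θ j)
    set Q := ∑ j ∈ s₀, 2 * scoreHigh M (θ j)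
    have hQ : 0 ≤ Q := sum_nonneg fun j _ => by unfold scoreHigh; split_ifs <;> positivity
    have hsplit : score c θ ≤ P + Q := by
      have : Q = ∑ j, (if c j ≠ 0 then 2 * scoreHigh M (θ j) else 0) := sum_filter _ _
      rw [this, ← sum_add_distrib]
      refine sum_le_sum fun j _ => ?_
      split_ifs with hj
      · exact score1_le_split M (θ j) (c j) (hc j)
      · simp [not_not.1 hj]
    have hexp : P - L ≤ Real.exp (s * (P - L)) / s := by
      rw [le_div_iff₀ hspos]
      linarith [Real.add_one_le_exp (s * (P - L))]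
    have hEq : D / s * Real.exp (-(s * L)) * E θ = D * (Real.exp (s * (P - L)) / s) * dens θ := by
      rw [hEeq, mul_sub, sub_eq_add_neg, Real.exp_add]
      ring
    have hHq : ∑ j ∈ s₀, 2 * H j θ = Q * dens θ := by
      rw [sum_mul]
      exact sum_congr rfl fun j _ => by rw [hHeq]; ring
    rw [hEq, hHq]
    have key : F θ * score c θ ≤ L * F θ + (D * (Real.exp (s * (P - L)) / s) + D * Q) := by
      have h1 : F θ * (P - L) ≤ D * (Real.exp (s * (P - L)) / s) :=
        (mul_le_mul_of_nonneg_left hexp hF1).trans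
          (mul_le_mul_of_nonneg_right hF2 (div_nonneg (Real.exp_pos _).le hspos.le))
      nlinarith [mul_le_mul_of_nonneg_left hsplit hF1, mul_le_mul_of_nonneg_right hF2 hQ]
    calc F θ * score c θ * dens θ
        ≤ (L * F θ + (D * (Real.exp (s * (P - L)) / s) + D * Q)) * dens θ :=
          mul_le_mul_of_nonneg_right key (dens_nonneg θ)
      _ = _ := by ring
  obtain ⟨CF, hCF⟩ := (isCompact_Icc (a := fun _ : κ => (-1 : ℝ))
    (b := fun _ : κ => (1 : ℝ))).exists_bound_of_continuousOn hF.continuousOn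
  have hB0 : 0 ≤ B := (dens1_nonneg 0).trans (hB 0).1
  have hdb : ∀ θ : κ → ℝ, dens θ ≤ B ^ Fintype.card κ := fun θ =>
    (prod_le_prod (fun i _ => dens1_nonneg _) fun i _ => (hB _).1).trans
      (le_of_eq (by rw [prod_const, card_univ]))
  have hiF : Integrable fun θ => F θ * dens θ :=
    integrable_mul_dens hF.measurable (B := D * B ^ Fintype.card κ) fun θ => by
      rcases eq_or_ne (dens θ) 0 with h0 | h0
      · rw [h0, mul_zero, abs_zero]; positivity
      · obtain ⟨h1, h2⟩ := hF0 θ h0
        rw [abs_of_nonneg (mul_nonneg h1 (dens_nonneg θ))]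
        exact mul_le_mul h2 (hdb θ) (dens_nonneg θ) hD
  have hiS : Integrable fun θ => F θ * score c θ * dens θ := by
    refine integrable_mul_dens (by fun_prop) (B := D * ((∑ j, |c j|) * B ^ Fintype.card κ)) fun θ => ?_
    rcases eq_or_ne (dens θ) 0 with h0 | h0
    · rw [h0, mul_zero, abs_zero]; positivity
    obtain ⟨h1, h2⟩ := hF0 θ h0
    rw [mul_assoc, abs_mul, abs_of_nonneg h1]
    refine mul_le_mul h2 ?_ (abs_nonneg _) hD
    rw [score, sum_mul, sum_mul]
    refine (abs_sum_le_sum_abs _ _).trans (sum_le_sum fun j _ => ?_)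
    rw [dens, ← mul_prod_erase _ _ (mem_univ j), mul_assoc, abs_mul, ← mul_assoc (score1 (θ j)),
      abs_mul (score1 (θ j) * dens1 (θ j))]
    refine mul_le_mul_of_nonneg_left ?_ (abs_nonneg _)
    rw [abs_of_nonneg (prod_nonneg fun i _ => dens1_nonneg (θ i))]
    refine (mul_le_mul (hB _).2 (prod_le_prod (fun i _ => dens1_nonneg _) fun i _ => (hB _).1)
      (prod_nonneg fun i _ => dens1_nonneg _) hB0).trans (le_of_eq ?_)
    rw [prod_const, card_erase_of_mem (mem_univ j), card_univ, ← pow_succ',
      Nat.sub_add_cancel (Fintype.card_pos_iff.2 ⟨j⟩)]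
  have hiR : Integrable fun θ => D / s * Real.exp (-(s * L)) * E θ + D * ∑ j ∈ s₀, 2 * H j θ :=
    (hEint.const_mul _).add ((integrable_finsetSum _ fun j _ => (hHint j).const_mul 2).const_mul D)
  calc ∫ θ, F θ * score c θ * dens θ
      ≤ ∫ θ, (L * (F θ * dens θ) +
          (D / s * Real.exp (-(s * L)) * E θ + D * ∑ j ∈ s₀, 2 * H j θ)) :=
        integral_mono hiS ((hiF.const_mul L).add hiR) hpt
    _ = L * (∫ θ, F θ * dens θ) +
          (D / s * Real.exp (-(s * L)) * (∫ θ, E θ) + D * ∑ j ∈ s₀, 2 * ∫ θ, H j θ) := by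
        rw [integral_add (hiF.const_mul L) hiR, integral_add (hEint.const_mul _)
          ((integrable_finsetSum _ fun j _ => (hHint j).const_mul 2).const_mul D),
          integral_const_mul, integral_const_mul, integral_const_mul,
          integral_finsetSum _ fun j _ => (hHint j).const_mul 2]
        simp only [integral_const_mul]
    _ ≤ L * (∫ θ, F θ * dens θ) + D * ((L + 64 * lawConst) * Real.exp (-l)) := by
        refine add_le_add le_rfl ?_
        have h1 : D / s * Real.exp (-(s * L)) * (∫ θ, E θ) ≤ D * (L * Real.exp (-l)) := by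
          refine (mul_le_mul_of_nonneg_left hEle (by positivity)).trans (le_of_eq_of_le ?_
            (mul_le_mul_of_nonneg_left (mul_le_mul_of_nonneg_right hLinv (Real.exp_pos _).le) hD))
          rw [mul_assoc, ← Real.exp_add]
          ring_nf
        have h2 : ∑ j ∈ s₀, 2 * (∫ θ, H j θ) ≤ 64 * lawConst * Real.exp (-l) :=
          (sum_le_sum fun j _ => mul_le_mul_of_nonneg_left (hHle j) (by norm_num)).trans
            (le_of_eq_of_le (by rw [sum_const, nsmul_eq_mul]) htail)
        nlinarith [mul_le_mul_of_nonneg_left h2 hD]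

end

end Vale.P304
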