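import Vale.Agent.P304.Work
import Vale.Agent.P304.Density
import Vale.Agent.P304.Defs

/-!
P304: the perturbed work function algorithm.  The servers sit at a minimiser of
`w + ∑ g (server)` for a random function `g` which is linear in the random weights.  A request
moves one server, and the mean movement is bounded by the mean derivative, along a direction
pointing to the request, of the increase of that minimum.
-/

namespace Vale.P304

open Finset Function MeasureTheory

noncomputable section

/-! ### A measurable choice of minimiser -/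

section argmin

variable {α : Type*} [Fintype α] [Nonempty α]

open scoped Classical in
lemma exists_argMin (v : α → ℝ) : ∃ a : α, (∀ b, v a ≤ v b) ∧
    ∀ b, (∀ x, v b ≤ v x) → Fintype.equivFin α a ≤ Fintype.equivFin α b := by
  obtain ⟨a₀, -, h₀⟩ := exists_min_image univ v univ_nonempty
  set s := univ.filter fun a => ∀ b, v a ≤ v b
  obtain ⟨a, ha, hmin⟩ := exists_min_image s (Fintype.equivFin α)
    ⟨a₀, mem_filter.2 ⟨mem_univ _, fun b => h₀ b (mem_univ b)⟩⟩
  exact ⟨a, (mem_filter.1 ha).2, fun b hb => hmin b (mem_filter.2 ⟨mem_univ _, hb⟩)⟩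

/-- The first minimiser. -/
def argMin (v : α → ℝ) : α := (exists_argMin v).choose

lemma argMin_le (v : α → ℝ) (b : α) : v (argMin v) ≤ v b := (exists_argMin v).choose_spec.1 b

lemma argMin_eq_iff (v : α → ℝ) (a : α) : argMin v = a ↔ (∀ b, v a ≤ v b) ∧
    ∀ b, (∀ x, v b ≤ v x) → Fintype.equivFin α a ≤ Fintype.equivFin α b := by
  constructor
  · rintro rfl
    exact (exists_argMin v).choose_spec
  · rintro ⟨h1, h2⟩
    have h := (exists_argMin v).choose_spec
    exact (Fintype.equivFin α).injective (le_antisymm (h.2 a h1) (h2 _ h.1))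

lemma measurable_argMin {β : Type*} [MeasurableSpace β] [MeasurableSpace α] {v : β → α → ℝ}
    (hv : ∀ a, Measurable fun x => v x a) : Measurable fun x => argMin (v x) := by
  refine measurable_to_countable' fun a => ?_
  have e : (fun x => argMin (v x)) ⁻¹' {a} = {x | (∀ b, v x a ≤ v x b) ∧
      ∀ b, (∀ y, v x b ≤ v x y) → Fintype.equivFin α a ≤ Fintype.equivFin α b} := by
    ext x
    simp [argMin_eq_iff]
  rw [e]
  exact (measurableSet_setOfPred.2 (by fun_prop))

end argmin

variable {X : Type*} {k : ℕ} [NeZero k] {κ : Type*} [Fintype κ]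

/-- The random function. -/
def pert (φ : X → κ → ℝ) (θ : κ → ℝ) (x : X) : ℝ := ∑ j, φ x j * θ j

/-- The perturbed work function. -/
def pval (φ : X → κ → ℝ) (θ : κ → ℝ) (w : (Fin k → X) → ℝ) (C : Fin k → X) : ℝ :=
  w C + ∑ i, pert φ θ (C i)

variable [Fintype X] [Nonempty X] (d : X → X → ℝ) (φ : X → κ → ℝ)

/-- The server moved to a request at `r`. -/
def idx (θ : κ → ℝ) (w : (Fin k → X) → ℝ) (S : Fin k → X) (r : X) : Fin k :=
  argMin fun i : Fin k => pval φ θ w (update S i r)

/-- The simulated configuration after the requests `l`. -/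
def virt (s : Fin k → X) (θ : κ → ℝ) (l : List X) : Fin k → X :=
  (l.foldl (fun p r => (wstep d p.1 r, update p.2 (idx φ θ p.1 p.2 r) r))
    (matchDist d s, argMin (pval φ θ (matchDist d s)))).2

lemma foldl_fst (s : Fin k → X) (θ : κ → ℝ) (l : List X) :
    (l.foldl (fun p r => (wstep d p.1 r, update p.2 (idx φ θ p.1 p.2 r) r))
      (matchDist d s, argMin (pval φ θ (matchDist d s)))).1 = workFn d s l := by
  induction l using List.reverseRecOn with
  | nil => rfl
  | append_singleton l r ih => rw [List.foldl_append, workFn_append, ← ih]; rfl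

lemma virt_append (s : Fin k → X) (θ : κ → ℝ) (l : List X) (r : X) :
    virt d φ s θ (l ++ [r]) =
      update (virt d φ s θ l) (idx φ θ (workFn d s l) (virt d φ s θ l) r) r := by
  rw [virt, List.foldl_append, List.foldl_cons, List.foldl_nil, ← foldl_fst d φ s θ l]
  rfl

/-- The policy for given weights. -/
def policy (s : Fin k → X) (θ : κ → ℝ) (l : List X) : Fin k :=
  match l.getLast? with
  | none => 0
  | some r => idx φ θ (workFn d s l.dropLast) (virt d φ s θ l.dropLast) r

lemma policy_append (s : Fin k → X) (θ : κ → ℝ) (l : List X) (r : X) :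
    policy d φ s θ (l ++ [r]) = idx φ θ (workFn d s l) (virt d φ s θ l) r := by
  simp [policy]

/-- The movement of the simulated servers. -/
def virtCost (s : Fin k → X) (θ : κ → ℝ) : List X → List X → ℝ
  | _, [] => 0
  | pre, r :: σ => d (virt d φ s θ pre (policy d φ s θ (pre ++ [r]))) r +
      virtCost s θ (pre ++ [r]) σ

variable {d φ}

omit [NeZero k] [Fintype X] [Nonempty X] in
lemma continuous_pval (w : (Fin k → X) → ℝ) (C : Fin k → X) :
    Continuous fun θ => pval φ θ w C := by
  unfold pval pert; fun_prop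

/-- The least perturbed value. -/
def zMin (φ : X → κ → ℝ) (w : (Fin k → X) → ℝ) (θ : κ → ℝ) : ℝ :=
  univ.inf' univ_nonempty fun C : Fin k → X => pval φ θ w C

/-- The least perturbed value over configurations containing `r`. -/
def zReq (φ : X → κ → ℝ) (w : (Fin k → X) → ℝ) (r : X) (θ : κ → ℝ) : ℝ :=
  univ.inf' univ_nonempty fun p : (Fin k → X) × Fin k => pval φ θ w (update p.1 p.2 r)

omit [NeZero k] in
lemma zMin_le (w : (Fin k → X) → ℝ) (θ : κ → ℝ) (C : Fin k → X) : zMin φ w θ ≤ pval φ θ w C :=
  inf'_le (fun C : Fin k → X => pval φ θ w C) (mem_univ C)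

lemma zReq_le (w : (Fin k → X) → ℝ) (r : X) (θ : κ → ℝ) (C : Fin k → X) (i : Fin k) :
    zReq φ w r θ ≤ pval φ θ w (update C i r) :=
  inf'_le (fun p : (Fin k → X) × Fin k => pval φ θ w (update p.1 p.2 r)) (mem_univ (C, i))

omit [NeZero k] in
lemma continuous_zMin (w : (Fin k → X) → ℝ) : Continuous (zMin φ w) :=
  Continuous.finset_inf'_apply _ fun _ _ => continuous_pval w _

lemma continuous_zReq (w : (Fin k → X) → ℝ) (r : X) : Continuous (zReq φ w r) :=
  Continuous.finset_inf'_apply _ fun _ _ => continuous_pval w _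

omit [NeZero k] in
lemma zMin_eq {w : (Fin k → X) → ℝ} {θ : κ → ℝ} {S : Fin k → X}
    (hS : ∀ C, pval φ θ w S ≤ pval φ θ w C) : zMin φ w θ = pval φ θ w S :=
  le_antisymm (zMin_le w θ S) (le_inf' _ _ fun C _ => hS C)

/-- From a minimiser, moving one server is best among the configurations containing `r`. -/
lemma pval_idx {w : (Fin k → X) → ℝ} (hw : IsWork d w) {θ : κ → ℝ} {S : Fin k → X}
    (hS : ∀ C, pval φ θ w S ≤ pval φ θ w C) (r : X) :
    pval φ θ w (update S (idx φ θ w S r) r) = zReq φ w r θ := by
  refine le_antisymm (le_inf' _ _ fun p _ => ?_) (zReq_le w r θ S _)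
  obtain ⟨C, i⟩ := p
  obtain ⟨σ, hσ⟩ := hw.exch S (update C i r)
  set j := σ⁻¹ i
  have hj : σ j = i := by simp [j]
  have h := hσ {j}ᶜ
  rw [compl_compl] at h
  have hg := sum_mix (pert φ θ) ({j}ᶜ : Finset (Fin k)) S (update C i r ∘ σ)
  rw [compl_compl] at hg
  have e1 : mix ({j}ᶜ : Finset (Fin k)) S (update C i r ∘ σ) = update S j r := by
    funext l
    by_cases hl : l = j
    · subst hl; simp [mix, hj]
    · simp [mix, hl]
  rw [e1] at h hg
  have hperm : ∑ l, pert φ θ ((update C i r ∘ σ) l) = ∑ l, pert φ θ (update C i r l) :=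
    Equiv.sum_comp σ fun l => pert φ θ (update C i r l)
  have h1 := hS (mix ({j} : Finset (Fin k)) S (update C i r ∘ σ))
  have h2 : pval φ θ w (update S (idx φ θ w S r) r) ≤ pval φ θ w (update S j r) :=
    argMin_le (fun l : Fin k => pval φ θ w (update S l r)) j
  simp only [pval] at h1 h2 ⊢
  linarith

/-- The random function is 1-Lipschitz for weights in the cube. -/
def PertLip (d : X → X → ℝ) (φ : X → κ → ℝ) : Prop :=
  ∀ θ : κ → ℝ, (∀ j, |θ j| ≤ 1) → ∀ x y, pert φ θ x ≤ pert φ θ y + d x y

/-- On the cube, a request turns the constrained minimum into the minimum. -/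
lemma zMin_wstep (hd : IsDist d) (hφ : PertLip d φ) {w : (Fin k → X) → ℝ} (hw : IsWork d w)
    {θ : κ → ℝ} (hθ : ∀ j, |θ j| ≤ 1) (r : X) : zMin φ (wstep d w r) θ = zReq φ w r θ := by
  refine le_antisymm (le_inf' _ _ fun p _ => ?_) (le_inf' _ _ fun C _ => ?_)
  · refine (zMin_le _ θ (update p.1 p.2 r)).trans ?_
    simp only [pval]
    linarith [IsWork.wstep_update_le (w := w) hd r p.1 p.2]
  · obtain ⟨i, hi⟩ := wstep_attained (d := d) w r C
    refine (zReq_le w r θ C i).trans ?_
    simp only [pval, hi]
    rw [IsWork.sum_update]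
    linarith [hφ θ hθ r (C i)]

/-- On the cube, the simulated configuration is a minimiser. -/
lemma virt_min (hd : IsDist d) (hφ : PertLip d φ) (s : Fin k → X) {θ : κ → ℝ}
    (hθ : ∀ j, |θ j| ≤ 1) (l : List X) (C : Fin k → X) :
    pval φ θ (workFn d s l) (virt d φ s θ l) ≤ pval φ θ (workFn d s l) C := by
  induction l using List.reverseRecOn generalizing C with
  | nil => exact argMin_le (pval φ θ (matchDist d s)) C
  | append_singleton l r ih =>
    have hw := isWork_workFn hd s l
    rw [workFn_append, virt_append]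
    refine le_trans ?_ (zMin_le (wstep d (workFn d s l) r) θ C)
    rw [zMin_wstep hd hφ hw hθ r, ← pval_idx (φ := φ) hw ih r]
    simp only [pval]
    linarith [IsWork.wstep_update_le (w := workFn d s l) hd r (virt d φ s θ l)
      (idx φ θ (workFn d s l) (virt d φ s θ l) r)]

omit [NeZero k] [Nonempty X] [Fintype X] in
lemma pval_shift (w : (Fin k → X) → ℝ) (θ c : κ → ℝ) (u : ℝ) (C : Fin k → X) :
    pval φ (θ + u • c) w C = pval φ θ w C + u * ∑ i, pert φ c (C i) := by
  simp only [pval, pert, mul_sum, add_assoc, ← sum_add_distrib]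
  congr 1
  refine sum_congr rfl fun i _ => sum_congr rfl fun j _ => ?_
  simp only [Pi.add_apply, Pi.smul_apply, smul_eq_mul]
  ring

lemma measurable_eval_finite {β γ : Type*} [MeasurableSpace β] [MeasurableSpace γ] [Fintype γ]
    [MeasurableSingletonClass γ] {f : β → γ → ℝ} {S : β → γ}
    (hf : ∀ c, Measurable fun x => f x c) (hS : Measurable S) :
    Measurable fun x => f x (S x) := by
  classical
  have e : (fun x => f x (S x)) = fun x => ∑ c, (S ⁻¹' {c}).indicator (fun x => f x c) x := by
    funext x
    rw [sum_eq_single (S x) (fun c _ hc => Set.indicator_of_notMem (by simpa using hc.symm) _)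
      (by simp), Set.indicator_of_mem (show x ∈ S ⁻¹' {S x} from rfl)]
  rw [e]
  exact Finset.measurable_sum _ fun c _ => (hf c).indicator (hS (measurableSet_singleton c))

/-- Policies and simulated configurations are measurable in the weights. -/
lemma measurable_virt [MeasurableSpace X] [MeasurableSingletonClass X] (s : Fin k → X)
    (l : List X) : Measurable fun θ => virt d φ s θ l := by
  induction l using List.reverseRecOn with
  | nil => exact measurable_argMin fun C => (continuous_pval _ C).measurable
  | append_singleton l r ih =>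
    have e : (fun θ => virt d φ s θ (l ++ [r])) = fun θ =>
        (fun p : (Fin k → X) × Fin k => update p.1 p.2 r)
          (virt d φ s θ l, idx φ θ (workFn d s l) (virt d φ s θ l) r) :=
      funext fun θ => virt_append d φ s θ l r
    rw [e]
    refine (Measurable.of_discrete (f := fun p : (Fin k → X) × Fin k => update p.1 p.2 r)).comp
      (ih.prodMk (measurable_argMin fun i => ?_))
    exact measurable_eval_finite (f := fun θ S => pval φ θ (workFn d s l) (update S i r))
      (fun S => (continuous_pval _ (update S i r)).measurable) ih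

lemma measurable_policy (s : Fin k → X) (l : List X) :
    Measurable fun θ => policy d φ s θ l := by
  letI : MeasurableSpace X := ⊤
  haveI : MeasurableSingletonClass X := ⟨fun _ => trivial⟩
  rcases List.eq_nil_or_concat l with rfl | ⟨pre, r, rfl⟩
  · exact measurable_const
  · simp only [List.concat_eq_append, policy_append]
    exact measurable_argMin fun i => measurable_eval_finite
      (f := fun θ S => pval φ θ (workFn d s pre) (update S i r))
      (fun S => (continuous_pval _ _).measurable) (measurable_virt s pre)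

lemma exists_abs_le (f : X → ℝ) : ∃ C, ∀ x, |f x| ≤ C :=
  ⟨univ.sup' univ_nonempty fun x => |f x|, fun x => le_sup' (fun x => |f x|) (mem_univ x)⟩

omit [NeZero k] [Nonempty X] in
lemma measurable_step_cost [MeasurableSpace X] [MeasurableSingletonClass X] {β : Type*}
    [MeasurableSpace β] {S : β → Fin k → X} {i : β → Fin k} (hS : Measurable S) (hi : Measurable i)
    (r : X) : Measurable fun θ => d (S θ (i θ)) r :=
  (Measurable.of_discrete (f := fun p : (Fin k → X) × Fin k => d (p.1 p.2) r)).comp
    (hS.prodMk hi)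

/-- The assumptions on the random function: Lipschitz on the cube, and for every point a direction
with few coordinates which points to it. -/
structure Pert (d : X → X → ℝ) (φ : X → κ → ℝ) (Γ J : ℝ) : Prop where
  lip : PertLip d φ
  pos : 0 ≤ Γ
  dir : ∀ r, ∃ c : κ → ℝ, (∀ j, |c j| ≤ 2) ∧ ((univ.filter fun j => c j ≠ 0).card : ℝ) ≤ J ∧
    ∀ x, d x r ≤ Γ * (pert φ c r - pert φ c x)

/-- The mean movement at one request. -/
theorem mean_step_le (hd : IsDist d) {Γ J : ℝ} (hP : Pert d φ Γ J) (s : Fin k → X) (pre : List X)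
    (r : X) {l : ℝ} (hl : 1 ≤ l) :
    ∫ θ, d (virt d φ s θ pre (policy d φ s θ (pre ++ [r]))) r * dens θ ≤
      Γ * (scoreBound J l * ((∫ θ, zMin φ (workFn d s (pre ++ [r])) θ * dens θ) -
          ∫ θ, zMin φ (workFn d s pre) θ * dens θ) +
        extCost d (workFn d s pre) r * ((scoreBound J l + 64 * lawConst) * Real.exp (-l))) := by
  classical
  letI : MeasurableSpace X := ⊤
  haveI : MeasurableSingletonClass X := ⟨fun _ => trivial⟩
  obtain ⟨c, hc, hJ, hdir⟩ := hP.dir r
  set w := workFn d s pre with hw'
  have hw : IsWork d w := isWork_workFn hd s pre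
  set S : (κ → ℝ) → Fin k → X := fun θ =>
    if ∀ C, pval φ θ w (virt d φ s θ pre) ≤ pval φ θ w C then virt d φ s θ pre
    else argMin (pval φ θ w) with hS
  have hSmin : ∀ θ C, pval φ θ w (S θ) ≤ pval φ θ w C := fun θ C => by
    rw [hS]; simp only
    split_ifs with h
    · exact h C
    · exact argMin_le _ C
  set i : (κ → ℝ) → Fin k := fun θ => idx φ θ w (S θ) r
  have hSm : Measurable S := by
    refine Measurable.ite ?_ (measurable_virt s pre) (measurable_argMin fun C =>
      (continuous_pval _ C).measurable)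
    simp only [Set.setOf_forall]
    refine MeasurableSet.iInter fun C => measurableSet_le ?_ (continuous_pval _ C).measurable
    exact measurable_eval_finite (f := fun θ S => pval φ θ w S)
      (fun S => (continuous_pval _ S).measurable) (measurable_virt s pre)
  have him : Measurable i := measurable_argMin fun j =>
    measurable_eval_finite (f := fun θ S => pval φ θ w (update S j r))
      (fun S => (continuous_pval _ _).measurable) hSm
  set ψ : (Fin k → X) → ℝ := fun C => ∑ i, pert φ c (C i)
  set S' : (κ → ℝ) → Fin k → X := fun θ => update (S θ) (i θ) r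
  have hS'm : Measurable S' :=
    (Measurable.of_discrete (f := fun p : (Fin k → X) × Fin k => update p.1 p.2 r)).comp
      (hSm.prodMk him)
  set F : (κ → ℝ) → ℝ := fun θ => zReq φ w r θ - zMin φ w θ
  have hF : Continuous F := (continuous_zReq w r).sub (continuous_zMin w)
  have hS' : ∀ θ, pval φ θ w (S' θ) = zReq φ w r θ := fun θ => pval_idx hw (hSmin θ) r
  have hz : ∀ θ, zMin φ w θ = pval φ θ w (S θ) := fun θ => zMin_eq (hSmin θ)
  have hslope : ∀ (θ : κ → ℝ) (u : ℝ), 0 ≤ u →
      u * (ψ (S' (θ + u • c)) - ψ (S θ)) ≤ F (θ + u • c) - F θ := by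
    intro θ u _
    have h1 : zReq φ w r θ ≤ pval φ θ w (S' (θ + u • c)) := zReq_le w r θ _ _
    have h2 : zMin φ w (θ + u • c) ≤ pval φ (θ + u • c) w (S θ) := zMin_le w _ _
    have h3 := hS' (θ + u • c)
    rw [pval_shift] at h2 h3
    have h4 := hz θ
    simp only [F]
    rw [mul_sub]
    linarith
  obtain ⟨Cψ, hCψ⟩ := exists_abs_le (X := Fin k → X) ψ
  have hmain := mean_slope_le hF
    ((Measurable.of_discrete (f := ψ)).comp hS'm) ((Measurable.of_discrete (f := ψ)).comp hSm)
    (fun θ => hCψ (S' θ)) (fun θ => hCψ (S θ)) c hslope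
  have hcube : ∀ θ : κ → ℝ, dens θ ≠ 0 → ∀ j, |θ j| ≤ 1 := fun θ h j => by
    have := sq_lt_one_of_dens h j
    exact abs_le.2 ⟨by nlinarith, by nlinarith⟩
  have hF0 : ∀ θ, dens θ ≠ 0 → 0 ≤ F θ ∧ F θ ≤ extCost d w r := by
    intro θ h
    refine ⟨?_, ?_⟩
    · have := zMin_le (φ := φ) w θ (S' θ)
      simp only [F]
      linarith [hS' θ]
    · have h1 := zMin_le (φ := φ) (wstep d w r) θ (S θ)
      rw [zMin_wstep hd hP.lip hw (hcube θ h) r] at h1
      simp only [F, hz θ, pval] at h1 ⊢
      linarith [le_extCost (d := d) w r (S θ)]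
  have hscore := mean_score_le hF (extCost_nonneg hw r) hF0 c hc hJ hl
  -- the movement
  set cost : (κ → ℝ) → ℝ := fun θ => d (virt d φ s θ pre (policy d φ s θ (pre ++ [r]))) r
  have hcost : ∀ θ, cost θ * dens θ ≤ Γ * ((ψ (S' θ) - ψ (S θ)) * dens θ) := by
    intro θ
    rcases eq_or_ne (dens θ) 0 with h0 | h0
    · simp [h0]
    have hSv : S θ = virt d φ s θ pre := if_pos (virt_min hd hP.lip s (hcube θ h0) pre)
    have hi : policy d φ s θ (pre ++ [r]) = i θ := by
      rw [policy_append, ← hw', ← hSv]
    rw [← mul_assoc]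
    refine mul_le_mul_of_nonneg_right ?_ (dens_nonneg θ)
    simp only [cost, ψ, S', hi, ← hSv, IsWork.sum_update]
    refine (hdir _).trans (le_of_eq ?_)
    ring
  obtain ⟨Cd, hCd⟩ := exists_abs_le (X := X) fun x => d x r
  obtain ⟨B, hB⟩ := exists_dens_bound
  have hB0 : 0 ≤ B := (dens1_nonneg 0).trans (hB 0).1
  have hdb : ∀ θ : κ → ℝ, |dens θ| ≤ B ^ Fintype.card κ := fun θ => by
    rw [abs_of_nonneg (dens_nonneg θ)]
    exact (prod_le_prod (fun i _ => dens1_nonneg _) fun i _ => (hB _).1).trans
      (le_of_eq (by rw [prod_const, card_univ]))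
  have hcm : Measurable cost := measurable_step_cost (measurable_virt s pre) (measurable_policy s _) r
  have i1 : Integrable fun θ => cost θ * dens θ := integrable_mul_dens hcm fun θ => by
    rw [abs_mul]
    exact mul_le_mul (hCd _) (hdb θ) (abs_nonneg _) ((abs_nonneg _).trans (hCd r))
  have i2 : Integrable fun θ => (ψ (S' θ) - ψ (S θ)) * dens θ :=
    integrable_mul_dens (((Measurable.of_discrete (f := ψ)).comp hS'm).sub
      ((Measurable.of_discrete (f := ψ)).comp hSm)) (B := 2 * Cψ * B ^ Fintype.card κ) fun θ => by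
      have h0 : 0 ≤ Cψ := (abs_nonneg _).trans (hCψ (S θ))
      rw [abs_mul]
      exact mul_le_mul (by linarith [abs_sub (ψ (S' θ)) (ψ (S θ)), hCψ (S' θ), hCψ (S θ)])
        (hdb θ) (abs_nonneg _) (by linarith)
  have hiz : ∀ g : (κ → ℝ) → ℝ, Continuous g → Integrable fun θ => g θ * dens θ := fun g hg => by
    refine integrable_mul_dens hg.measurable (B := (((isCompact_Icc (a := fun _ : κ => (-1 : ℝ))
      (b := fun _ : κ => (1 : ℝ))).exists_bound_of_continuousOn
        (hg.continuousOn (s := _))).choose ⊔ 0) * B ^ Fintype.card κ) fun θ => ?_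
    rcases eq_or_ne (dens θ) 0 with h0 | h0
    · rw [h0, mul_zero, abs_zero]; positivity
    rw [abs_mul]
    refine mul_le_mul (le_trans ?_ le_sup_left) (hdb θ) (abs_nonneg _) le_sup_right
    exact ((isCompact_Icc (a := fun _ : κ => (-1 : ℝ))
      (b := fun _ : κ => (1 : ℝ))).exists_bound_of_continuousOn (hg.continuousOn (s := _))).choose_spec θ
        ⟨fun j => (abs_le.1 (hcube θ h0 j)).1, fun j => (abs_le.1 (hcube θ h0 j)).2⟩
  have hFeq : ∫ θ, F θ * dens θ = (∫ θ, zMin φ (workFn d s (pre ++ [r])) θ * dens θ) -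
      ∫ θ, zMin φ w θ * dens θ := by
    rw [← integral_sub (hiz _ (continuous_zMin _)) (hiz _ (continuous_zMin _))]
    refine integral_congr_ae (Filter.Eventually.of_forall fun θ => ?_)
    rcases eq_or_ne (dens θ) 0 with h0 | h0
    · simp [h0]
    · simp only [workFn_append, zMin_wstep hd hP.lip hw (hcube θ h0) r, F, ← hw']
      ring
  calc ∫ θ, cost θ * dens θ ≤ ∫ θ, Γ * ((ψ (S' θ) - ψ (S θ)) * dens θ) :=
        integral_mono i1 (i2.const_mul Γ) hcost
    _ = Γ * ∫ θ, (ψ (S' θ) - ψ (S θ)) * dens θ := integral_const_mul _ _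
    _ ≤ _ := by
        refine mul_le_mul_of_nonneg_left ?_ hP.pos
        rw [← hFeq]
        exact hmain.trans hscore

lemma measurable_virtCost (s : Fin k → X) (σ : List X) :
    ∀ pre, Measurable fun θ => virtCost d φ s θ pre σ := by
  letI : MeasurableSpace X := ⊤
  haveI : MeasurableSingletonClass X := ⟨fun _ => trivial⟩
  induction σ with
  | nil => exact fun _ => measurable_const
  | cons r σ ih =>
    exact fun pre =>
      (measurable_step_cost (measurable_virt s pre) (measurable_policy s _) r).add (ih _)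

lemma exists_virtCost_le (s : Fin k → X) (σ : List X) :
    ∀ pre, ∃ C, ∀ θ, |virtCost d φ s θ pre σ| ≤ C := by
  induction σ with
  | nil => exact fun _ => ⟨0, fun θ => by simp [virtCost]⟩
  | cons r σ ih =>
    intro pre
    obtain ⟨C, hC⟩ := ih (pre ++ [r])
    obtain ⟨D, hD⟩ := exists_abs_le (X := X) fun x => d x r
    exact ⟨D + C, fun θ => (abs_add_le _ _).trans (add_le_add (hD _) (hC θ))⟩

/-- The mean movement of the simulated servers. -/
theorem mean_virtCost_le (hd : IsDist d) {Γ J : ℝ} (hP : Pert d φ Γ J) (s : Fin k → X) {l : ℝ}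
    (hl : 1 ≤ l) (σ : List X) : ∀ pre : List X,
    ∫ θ, virtCost d φ s θ pre σ * dens θ ≤
      Γ * (scoreBound J l * ((∫ θ, zMin φ (workFn d s (pre ++ σ)) θ * dens θ) -
          ∫ θ, zMin φ (workFn d s pre) θ * dens θ) +
        (kpPot d (workFn d s (pre ++ σ)) - kpPot d (workFn d s pre)) *
          ((scoreBound J l + 64 * lawConst) * Real.exp (-l))) := by
  letI : MeasurableSpace X := ⊤
  haveI : MeasurableSingletonClass X := ⟨fun _ => trivial⟩
  obtain ⟨B, hB⟩ := exists_dens_bound
  have hB0 : 0 ≤ B := (dens1_nonneg 0).trans (hB 0).1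
  have hdb : ∀ θ : κ → ℝ, |dens θ| ≤ B ^ Fintype.card κ := fun θ => by
    rw [abs_of_nonneg (dens_nonneg θ)]
    exact (prod_le_prod (fun i _ => dens1_nonneg _) fun i _ => (hB _).1).trans
      (le_of_eq (by rw [prod_const, card_univ]))
  have hE : 0 ≤ (scoreBound J l + 64 * lawConst) * Real.exp (-l) := by
    refine mul_nonneg (add_nonneg ?_ (by linarith [lawConst_pos])) (Real.exp_pos _).le
    unfold scoreBound
    have := lawConst_pos
    have := Real.sqrt_nonneg (J * l)
    positivity
  induction σ with
  | nil =>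
    intro pre
    simp [virtCost]
  | cons r σ ih =>
    intro pre
    obtain ⟨D, hD⟩ := exists_abs_le (X := X) fun x => d x r
    obtain ⟨C, hC⟩ := exists_virtCost_le (d := d) (φ := φ) s σ (pre ++ [r])
    have i1 : Integrable fun θ => d (virt d φ s θ pre (policy d φ s θ (pre ++ [r]))) r * dens θ :=
      integrable_mul_dens (measurable_step_cost (measurable_virt s pre) (measurable_policy s _) r)
        fun θ => by
          rw [abs_mul]
          exact mul_le_mul (hD _) (hdb θ) (abs_nonneg _) ((abs_nonneg _).trans (hD r))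
    have i2 : Integrable fun θ => virtCost d φ s θ (pre ++ [r]) σ * dens θ :=
      integrable_mul_dens (measurable_virtCost s σ _) (B := (C ⊔ 0) * B ^ Fintype.card κ) fun θ => by
        rw [abs_mul]
        exact mul_le_mul ((hC θ).trans le_sup_left) (hdb θ) (abs_nonneg _) le_sup_right
    have h1 := mean_step_le hd hP s pre r hl
    have h2 := ih (pre ++ [r])
    have h3 : extCost d (workFn d s pre) r ≤
        kpPot d (workFn d s (pre ++ [r])) - kpPot d (workFn d s pre) := by
      rw [workFn_append]
      linarith [kpPot_step hd (isWork_workFn hd s pre) r]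
    simp only [virtCost, add_mul]
    rw [integral_add i1 i2, show pre ++ r :: σ = pre ++ [r] ++ σ by simp]
    have h4 := mul_le_mul_of_nonneg_left (mul_le_mul_of_nonneg_right h3 hE) hP.pos
    linarith

omit [Fintype X] [Nonempty X] in
/-- The work function is at most the cost of any service. -/
lemma exists_workFn_le (hd : IsDist d) (s : Fin k → X) (σ : List X) :
    ∀ (pre : List X) (P : Fin k → X) (c : ℕ → Fin k),
      ∃ C, workFn d s (pre ++ σ) C ≤ workFn d s pre P + serveCost d P σ c := by
  induction σ with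
  | nil => exact fun pre P c => ⟨P, by simp [serveCost]⟩
  | cons r σ ih =>
    intro pre P c
    obtain ⟨C, hC⟩ := ih (pre ++ [r]) (update P (c 0) r) fun t => c (t + 1)
    refine ⟨C, ?_⟩
    rw [List.append_cons]
    refine hC.trans ?_
    have h1 := IsWork.wstep_update_le (w := workFn d s pre) hd r P (c 0)
    have h2 := (isWork_workFn hd s pre).lip P (c 0) r
    rw [workFn_append]
    simp only [serveCost]
    linarith

/-- The real servers follow the simulated ones. -/
lemma serveCost_policy_le (hd : IsDist d) (s : Fin k → X) (θ : κ → ℝ) (σ : List X) :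
    ∀ (pre : List X) (P : Fin k → X),
      serveCost d P σ (fun t => policy d φ s θ (pre ++ σ.take (t + 1))) ≤
        virtCost d φ s θ pre σ + ∑ i, d (P i) (virt d φ s θ pre i) := by
  induction σ with
  | nil =>
    intro pre P
    simp only [serveCost, virtCost, zero_add]
    exact sum_nonneg fun i _ => hd.nonneg _ _
  | cons r σ ih =>
    intro pre P
    set i₀ := policy d φ s θ (pre ++ [r]) with hi₀
    have hvirt : virt d φ s θ (pre ++ [r]) = update (virt d φ s θ pre) i₀ r := by
      rw [virt_append, hi₀, policy_append]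
    have h := ih (pre ++ [r]) (update P i₀ r)
    simp only [List.append_assoc, List.singleton_append] at h
    simp only [serveCost, virtCost, List.take_succ_cons, List.take_zero, ← hi₀]
    have hsum : ∑ i, d (update P i₀ r i) (virt d φ s θ (pre ++ [r]) i) =
        ∑ i, d (P i) (virt d φ s θ pre i) - d (P i₀) (virt d φ s θ pre i₀) := by
      rw [hvirt, ← add_sum_erase _ _ (mem_univ i₀),
        ← add_sum_erase _ (fun i => d (P i) (virt d φ s θ pre i)) (mem_univ i₀)]
      simp only [update_self, hd.refl]
      rw [sum_congr rfl fun i hi => by rw [update_of_ne (mem_erase.1 hi).1,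
        update_of_ne (mem_erase.1 hi).1]]
      ring
    have htri := hd.tri (P i₀) (virt d φ s θ pre i₀) r
    linarith

/-- The perturbed work function algorithm. -/
theorem mean_policyCost_le (hd : IsDist d) {Γ J : ℝ} (hP : Pert d φ Γ J) (s : Fin k → X) {l : ℝ}
    (hl : 1 ≤ l) :
    ∃ B : ℝ, ∀ (σ : List X) (c : ℕ → Fin k),
      ∫ θ, policyCost d s σ (policy d φ s θ) * dens θ ≤
        Γ * (scoreBound J l + 2 * k * ((scoreBound J l + 64 * lawConst) * Real.exp (-l))) *
          serveCost d s σ c + B := by
  classical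
  letI : MeasurableSpace X := ⊤
  haveI : MeasurableSingletonClass X := ⟨fun _ => trivial⟩
  set E := (scoreBound J l + 64 * lawConst) * Real.exp (-l) with hE'
  have hL0 : 0 ≤ scoreBound J l := by
    unfold scoreBound
    have := lawConst_pos
    have := Real.sqrt_nonneg (J * l)
    positivity
  have hE : 0 ≤ E := mul_nonneg (by linarith [lawConst_pos]) (Real.exp_pos _).le
  obtain ⟨G, hG⟩ := exists_abs_le (X := X) fun x => ∑ j, |φ x j|
  obtain ⟨D, hD⟩ := exists_abs_le (X := X × X) fun p => d p.1 p.2
  have hD' : ∀ x y, d x y ≤ D := fun x y => (le_abs_self _).trans (hD (x, y))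
  refine ⟨Γ * (scoreBound J l * (2 * k * G + matchDist d s s) +
    (2 * k * matchDist d s s + k * k * D) * E) + k * D, fun σ c => ?_⟩
  obtain ⟨C, hC⟩ := exists_workFn_le hd s σ [] s c
  rw [List.nil_append] at hC
  have hC' : workFn d s σ C ≤ serveCost d s σ c + matchDist d s s := by
    simpa [workFn, add_comm] using hC
  obtain ⟨B, hB⟩ := exists_dens_bound
  have hB0 : 0 ≤ B := (dens1_nonneg 0).trans (hB 0).1
  have hdb : ∀ θ : κ → ℝ, |dens θ| ≤ B ^ Fintype.card κ := fun θ => by
    rw [abs_of_nonneg (dens_nonneg θ)]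
    exact (prod_le_prod (fun i _ => dens1_nonneg _) fun i _ => (hB _).1).trans
      (le_of_eq (by rw [prod_const, card_univ]))
  have hcube : ∀ θ : κ → ℝ, dens θ ≠ 0 → ∀ j, |θ j| ≤ 1 := fun θ h j => by
    have := sq_lt_one_of_dens h j
    exact abs_le.2 ⟨by nlinarith, by nlinarith⟩
  have hpert : ∀ θ, dens θ ≠ 0 → ∀ P : Fin k → X, |∑ i, pert φ θ (P i)| ≤ k * G := by
    intro θ h P
    refine (abs_sum_le_sum_abs _ _).trans ((sum_le_sum (g := fun _ => G) fun i _ => ?_).trans
      (le_of_eq (by simp)))
    refine le_trans ?_ ((le_abs_self _).trans (hG (P i)))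
    refine (abs_sum_le_sum_abs _ _).trans (sum_le_sum fun j _ => ?_)
    rw [abs_mul]
    exact mul_le_of_le_one_right (abs_nonneg _) (hcube θ h j)
  have hG0 : 0 ≤ G := (abs_nonneg _).trans (hG (Classical.arbitrary X))
  have hiz : ∀ w : (Fin k → X) → ℝ, Integrable fun θ => zMin φ w θ * dens θ := fun w => by
    obtain ⟨W, hW⟩ := exists_abs_le (X := Fin k → X) w
    refine integrable_mul_dens (continuous_zMin w).measurable
      (B := ((W + k * G) ⊔ 0) * B ^ Fintype.card κ) fun θ => ?_
    rcases eq_or_ne (dens θ) 0 with h0 | h0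
    · rw [h0, mul_zero, abs_zero]; positivity
    rw [abs_mul]
    refine mul_le_mul (le_trans ?_ le_sup_left) (hdb θ) (abs_nonneg _) le_sup_right
    rw [zMin_eq (argMin_le (pval φ θ w))]
    exact (abs_add_le _ _).trans (add_le_add (hW _) (hpert θ h0 _))
  have idens : Integrable (dens (κ := κ)) := by
    simpa using integrable_mul_dens (g := fun _ : κ → ℝ => (1 : ℝ)) measurable_const
      fun θ => by rw [one_mul]; exact hdb θ
  have hup : ∫ θ, zMin φ (workFn d s σ) θ * dens θ ≤ workFn d s σ C + k * G := by
    calc ∫ θ, zMin φ (workFn d s σ) θ * dens θ ≤ ∫ θ, (workFn d s σ C + k * G) * dens θ := by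
          refine integral_mono (hiz _) (idens.const_mul _) fun θ => ?_
          rcases eq_or_ne (dens θ) 0 with h0 | h0
          · simp [h0]
          · refine mul_le_mul_of_nonneg_right ((zMin_le _ θ C).trans ?_) (dens_nonneg θ)
            simp only [pval]
            linarith [(abs_le.1 (hpert θ h0 C)).2]
      _ = workFn d s σ C + k * G := by rw [integral_const_mul, integral_dens, mul_one]
  have hlow : -((k : ℝ) * G) ≤ ∫ θ, zMin φ (workFn d s ([] : List X)) θ * dens θ := by
    calc -((k : ℝ) * G) = ∫ θ : κ → ℝ, -((k : ℝ) * G) * dens θ := by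
          rw [integral_const_mul, integral_dens, mul_one]
      _ ≤ _ := by
          refine integral_mono (idens.const_mul _) (hiz _) fun θ => ?_
          rcases eq_or_ne (dens θ) 0 with h0 | h0
          · simp [h0]
          · refine mul_le_mul_of_nonneg_right (le_inf' _ _ fun P _ => ?_) (dens_nonneg θ)
            simp only [pval]
            linarith [(abs_le.1 (hpert θ h0 P)).1, (isWork_workFn hd s []).nonneg P]
  have hv := mean_virtCost_le hd hP s hl σ []
  rw [List.nil_append] at hv
  have hkp1 := kpPot_le hd (workFn d s σ) C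
  have hkp2 := le_kpPot (isWork_workFn hd s ([] : List X)) hD'
  obtain ⟨Cv, hCv⟩ := exists_virtCost_le (d := d) (φ := φ) s σ []
  have iv : Integrable fun θ => virtCost d φ s θ [] σ * dens θ :=
    integrable_mul_dens (measurable_virtCost s σ _) (B := (Cv ⊔ 0) * B ^ Fintype.card κ) fun θ => by
      rw [abs_mul]
      exact mul_le_mul ((hCv θ).trans le_sup_left) (hdb θ) (abs_nonneg _) le_sup_right
  have hserve : ∀ (σ' : List X) (P : Fin k → X) (c' : ℕ → Fin k), 0 ≤ serveCost d P σ' c' := by
    intro σ'
    induction σ' with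
    | nil => intro P c'; simp [serveCost]
    | cons r σ' ih => intro P c'; exact add_nonneg (hd.nonneg _ _) (ih _ _)
  have hmove : ∫ θ, policyCost d s σ (policy d φ s θ) * dens θ ≤
      (∫ θ, virtCost d φ s θ [] σ * dens θ) + k * D := by
    have hid : Integrable fun θ : κ → ℝ => (k : ℝ) * D * dens θ := idens.const_mul _
    calc ∫ θ, policyCost d s σ (policy d φ s θ) * dens θ
        ≤ ∫ θ, (virtCost d φ s θ [] σ * dens θ + (k : ℝ) * D * dens θ) := by
          refine integral_mono_of_nonneg (Filter.Eventually.of_forall fun θ =>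
            mul_nonneg (hserve _ _ _) (dens_nonneg θ)) (iv.add hid)
            (Filter.Eventually.of_forall fun θ => ?_)
          simp only
          rw [← add_mul]
          refine mul_le_mul_of_nonneg_right ?_ (dens_nonneg θ)
          refine (serveCost_policy_le hd s θ σ [] s).trans (add_le_add le_rfl ?_)
          exact (sum_le_sum fun i _ => hD' _ _).trans (le_of_eq (by simp))
      _ = _ := by rw [integral_add iv hid, integral_const_mul, integral_dens, mul_one]
  refine hmove.trans ?_
  have h1 := mul_le_mul_of_nonneg_left (add_le_add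
    (mul_le_mul_of_nonneg_left (sub_le_sub hup hlow) hL0)
    (mul_le_mul_of_nonneg_right (sub_le_sub hkp1 hkp2) hE)) hP.pos
  have h2 := mul_le_mul_of_nonneg_left hC'
    (mul_nonneg hP.pos (by positivity : 0 ≤ scoreBound J l + 2 * k * E))
  rw [← hE'] at hv
  linarith

end

end Vale.P304
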