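import Vale.Agent.P304.Tree

/-!
P304: the law of the weights as a probability measure, integrability of the movement, and
comparisons between movements in two metrics.
-/

namespace Vale.P304

open Finset Function MeasureTheory

noncomputable section

variable {X : Type*} {k : ℕ}

lemma serveCost_congr (d : X → X → ℝ) (σ : List X) : ∀ (P : Fin k → X) (c c' : ℕ → Fin k),
    (∀ t, t < σ.length → c t = c' t) → serveCost d P σ c = serveCost d P σ c' := by
  induction σ with
  | nil => intro P c c' _; rfl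
  | cons r σ ih =>
    intro P c c' h
    simp only [serveCost, h 0 (by simp)]
    rw [ih _ (fun t => c (t + 1)) (fun t => c' (t + 1)) fun t ht => h (t + 1) (by simpa using ht)]

lemma serveCost_mono {d d' : X → X → ℝ} (h : ∀ x y, d x y ≤ d' x y) (σ : List X) :
    ∀ (P : Fin k → X) (c : ℕ → Fin k), serveCost d P σ c ≤ serveCost d' P σ c := by
  induction σ with
  | nil => intro P c; exact le_rfl
  | cons r σ ih => intro P c; exact add_le_add (h _ _) (ih _ _)

lemma sum_serveCost_le {ι : Type*} [Fintype ι] {d : X → X → ℝ} {D : ι → X → X → ℝ} {F : ℝ}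
    (h : ∀ x y, ∑ i, D i x y ≤ F * d x y) (σ : List X) :
    ∀ (P : Fin k → X) (c : ℕ → Fin k), ∑ i, serveCost (D i) P σ c ≤ F * serveCost d P σ c := by
  induction σ with
  | nil => intro P c; simp [serveCost]
  | cons r σ ih =>
    intro P c
    simp only [serveCost, sum_add_distrib, mul_add]
    exact add_le_add (h _ _) (ih _ _)

lemma integrable_policyCost [NeZero k] {Ω : Type*} [MeasurableSpace Ω] {μ : Measure Ω}
    [IsFiniteMeasure μ] (d : X → X → ℝ) (s : Fin k → X) (σ : List X) {A : Ω → List X → Fin k}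
    (hA : ∀ l, Measurable fun ω => A ω l) :
    Integrable (fun ω => policyCost d s σ (A ω)) μ := by
  set g : (Fin σ.length → Fin k) → ℝ := fun v =>
    serveCost d s σ fun t => if h : t < σ.length then v ⟨t, h⟩ else 0
  have e : (fun ω => policyCost d s σ (A ω)) =
      fun ω => g fun t => A ω (σ.take ((t : ℕ) + 1)) := by
    funext ω
    exact serveCost_congr d σ s _ _ fun t ht => by simp [ht]
  rw [e]
  have hm : Measurable fun ω => fun t : Fin σ.length => A ω (σ.take ((t : ℕ) + 1)) :=
    measurable_pi_lambda _ fun t => hA _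
  exact Integrable.of_bound ((Measurable.of_discrete (f := g)).comp hm).aestronglyMeasurable
    (∑ v, |g v|) (Filter.Eventually.of_forall fun ω => by
      rw [Real.norm_eq_abs]
      exact single_le_sum (f := fun v => |g v|) (fun v _ => abs_nonneg _)
        (mem_univ (fun t : Fin σ.length => A ω (σ.take ((t : ℕ) + 1)))))

variable (κ : Type*) [Fintype κ]

/-- The law of the weights. -/
def weightLaw : Measure (κ → ℝ) := volume.withDensity fun θ => ENNReal.ofReal (dens θ)

lemma integrable_dens : Integrable (dens (κ := κ)) := by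
  refine Integrable.of_integral_ne_zero ?_
  rw [integral_dens]
  norm_num

instance : IsProbabilityMeasure (weightLaw κ) := by
  constructor
  rw [weightLaw, withDensity_apply _ MeasurableSet.univ, Measure.restrict_univ,
    ← ofReal_integral_eq_lintegral_ofReal (integrable_dens κ)
      (Filter.Eventually.of_forall dens_nonneg), integral_dens, ENNReal.ofReal_one]

lemma integral_weightLaw (f : (κ → ℝ) → ℝ) :
    ∫ θ, f θ ∂weightLaw κ = ∫ θ, f θ * dens θ := by
  rw [weightLaw, integral_withDensity_eq_integral_toReal_smul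
    continuous_dens.measurable.ennreal_ofReal
    (Filter.Eventually.of_forall fun _ => ENNReal.ofReal_lt_top)]
  simp only [ENNReal.toReal_ofReal (dens_nonneg _), smul_eq_mul, mul_comm]

lemma exists_scale {Y : Type*} [MetricSpace Y] [Fintype Y] :
    ∃ (δ : ℝ) (H : ℕ), 0 < δ ∧ (∀ x y : Y, x ≠ y → 2 * δ ≤ dist x y) ∧
      ∀ x y : Y, dist x y ≤ rad δ H := by
  classical
  set S : Finset ℝ := insert 1 ((univ.filter fun p : Y × Y => p.1 ≠ p.2).image
    fun p => dist p.1 p.2)
  have hS : S.Nonempty := insert_nonempty _ _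
  have hpos : 0 < S.min' hS := by
    refine (lt_min'_iff _ _).2 fun v hv => ?_
    rcases mem_insert.1 hv with rfl | hv
    · norm_num
    · obtain ⟨p, hp, rfl⟩ := mem_image.1 hv
      exact dist_pos.2 (mem_filter.1 hp).2
  set D : ℝ := ∑ p : Y × Y, dist p.1 p.2
  obtain ⟨H, hH⟩ := pow_unbounded_of_one_lt (D / (S.min' hS / 2)) (by norm_num : (1 : ℝ) < 4)
  refine ⟨S.min' hS / 2, H, by linarith, fun x y h => ?_, fun x y => ?_⟩
  · have := S.min'_le (dist x y) (mem_insert_of_mem (mem_image.2
      ⟨(x, y), mem_filter.2 ⟨mem_univ _, h⟩, rfl⟩))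
    linarith
  · have h1 : dist x y ≤ D :=
      single_le_sum (f := fun p : Y × Y => dist p.1 p.2) (fun p _ => dist_nonneg)
        (mem_univ (x, y))
    rw [div_lt_iff₀ (by linarith)] at hH
    rw [rad]
    linarith

lemma ratio_le {n k : ℕ} (hn : 1 ≤ n) (hk : 1 ≤ k) :
    (3 : ℝ) * (scoreBound (4 * (1 + Real.log n)) (1 + Real.log k) + 2 * k *
        ((scoreBound (4 * (1 + Real.log n)) (1 + Real.log k) + 64 * lawConst) *
          Real.exp (-(1 + Real.log k)))) ≤
      1056 * (lawConst + 2) * ((Real.sqrt ((1 + Real.log n) * (1 + Real.log k)) +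
        (1 + Real.log k)) * (1 + Real.log (2 + Real.log n + Real.log k)) ^ 2) := by
  have hk' : (1 : ℝ) ≤ k := by exact_mod_cast hk
  have hu : 0 ≤ Real.log n := Real.log_natCast_nonneg n
  have hv : 0 ≤ Real.log k := Real.log_natCast_nonneg k
  have hΛ := lawConst_pos
  set u := Real.log n
  set v := Real.log k with hv'
  set G := 1 + Real.log (2 + u + v)
  set Q := Real.sqrt ((1 + u) * (1 + v)) + (1 + v)
  have hG : 1 ≤ G := by
    simp only [G]
    linarith [Real.log_nonneg (show (1 : ℝ) ≤ 2 + u + v by linarith)]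
  have hQ : 1 ≤ Q := by
    simp only [Q]
    linarith [Real.sqrt_nonneg ((1 + u) * (1 + v))]
  set a := Real.log (2 * (1 + v) + 2 * Real.log (4 * (1 + u) + 1) + 4) with ha'
  have hJ := Real.log_le_sub_one_of_pos (show 0 < 4 * (1 + u) + 1 by linarith)
  have hJ0 := Real.log_nonneg (show (1 : ℝ) ≤ 4 * (1 + u) + 1 by linarith)
  have ha0 : 0 ≤ a := Real.log_nonneg (by linarith)
  have ha : a ≤ 3 * G := by
    have h8 : Real.log 8 ≤ 3 := by
      rw [show (8 : ℝ) = 2 ^ 3 by norm_num, Real.log_pow]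
      push_cast
      linarith [Real.log_two_lt_d9]
    calc a ≤ Real.log (8 * (2 + u + v)) := Real.log_le_log (by linarith) (by linarith)
      _ = Real.log 8 + Real.log (2 + u + v) :=
          Real.log_mul (by norm_num) (by linarith)
      _ ≤ _ := by
          simp only [G]
          linarith [Real.log_nonneg (show (1 : ℝ) ≤ 2 + u + v by linarith)]
  have hsq : Real.sqrt (4 * (1 + u) * (1 + v)) = 2 * Real.sqrt ((1 + u) * (1 + v)) := by
    rw [mul_assoc, Real.sqrt_mul (by norm_num), show (4 : ℝ) = 2 ^ 2 by norm_num,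
      Real.sqrt_sq (by norm_num)]
  have hL : scoreBound (4 * (1 + u)) (1 + v) ≤ 144 * (lawConst + 2) * (Q * G ^ 2) := by
    rw [scoreBound, hsq, ← ha']
    calc 8 * a ^ 2 * (lawConst + 2) * (2 * Real.sqrt ((1 + u) * (1 + v)) + (1 + v))
        ≤ 8 * (3 * G) ^ 2 * (lawConst + 2) * (2 * Q) := by
          gcongr
          simp only [Q]
          linarith
      _ = _ := by ring
  have hL0 : 0 ≤ scoreBound (4 * (1 + u)) (1 + v) := by
    unfold scoreBound
    have := Real.sqrt_nonneg (4 * (1 + u) * (1 + v))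
    positivity
  have he : 2 * (k : ℝ) * Real.exp (-(1 + v)) ≤ 1 := by
    rw [neg_add, Real.exp_add, Real.exp_neg v, hv', Real.exp_log (by linarith)]
    have h1 : Real.exp (-1) ≤ 1 / 2 := by
      rw [Real.exp_neg, one_div]
      exact inv_anti₀ (by norm_num) (by linarith [Real.add_one_le_exp (1 : ℝ)])
    rw [show 2 * (k : ℝ) * (Real.exp (-1) * (k : ℝ)⁻¹) = 2 * Real.exp (-1) by field_simp]
    linarith
  have h3 : 2 * (k : ℝ) * ((scoreBound (4 * (1 + u)) (1 + v) + 64 * lawConst) *
      Real.exp (-(1 + v))) ≤ scoreBound (4 * (1 + u)) (1 + v) + 64 * lawConst :=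
    calc _ = (scoreBound (4 * (1 + u)) (1 + v) + 64 * lawConst) *
          (2 * (k : ℝ) * Real.exp (-(1 + v))) := by ring
      _ ≤ _ := mul_le_of_le_one_right (by linarith) he
  have hQG : 1 ≤ Q * G ^ 2 := one_le_mul_of_one_le_of_one_le hQ (one_le_pow₀ hG)
  have h4 : (lawConst + 2) * 1 ≤ (lawConst + 2) * (Q * G ^ 2) :=
    mul_le_mul_of_nonneg_left hQG (by linarith)
  linarith

/-- A policy for a random metric that dominates `d` and is at most `F d` on average. -/
theorem exists_policy [Fintype X] [Nonempty X] [NeZero k] {K : Type} [Fintype K] {N : ℕ}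
    [NeZero N] {d : X → X → ℝ} (hd : ∀ x y, 0 ≤ d x y) {D : Fin N → X → X → ℝ}
    {φ : Fin N → X → K → ℝ} {Γ J R F l : ℝ} (hD : ∀ i, IsDist (D i))
    (hdom : ∀ i x y, d x y ≤ D i x y) (hP : ∀ i, Pert (D i) (φ i) Γ J)
    (hmean : ∀ x y, ∑ i, D i x y ≤ (N : ℝ) * F * d x y) (hl : 1 ≤ l)
    (hR : Γ * (scoreBound J l + 2 * k * ((scoreBound J l + 64 * lawConst) * Real.exp (-l))) ≤ R)
    (hR0 : 0 < R) (hF : 0 < F) (s : Fin k → X) :
    ∃ (μ : Measure (Fin N × (K → ℝ))) (A : Fin N × (K → ℝ) → List X → Fin k),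
      IsProbabilityMeasure μ ∧ (∀ h : List X, Measurable fun ω => A ω h) ∧
      ∃ B : ℝ, ∀ σ : List X, Integrable (fun ω => policyCost d s σ (A ω)) μ ∧
        ∫ ω, policyCost d s σ (A ω) ∂μ ≤ R * F * optCost d s σ + B := by
  choose Bf hBf using fun i => mean_policyCost_le (hD i) (hP i) s hl
  have hA : ∀ h : List X, Measurable fun ω : Fin N × (K → ℝ) =>
      policy (D ω.1) (φ ω.1) s ω.2 h := fun h =>
    measurable_from_prod_countable_right fun i => measurable_policy (d := D i) (φ := φ i) s h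
  refine ⟨((PMF.uniformOfFintype (Fin N)).toMeasure).prod (weightLaw K),
    fun ω => policy (D ω.1) (φ ω.1) s ω.2, inferInstance, hA,
    (N : ℝ)⁻¹ * ∑ i, Bf i, fun σ => ?_⟩
  have hint : Integrable (fun ω : Fin N × (K → ℝ) =>
      policyCost d s σ (policy (D ω.1) (φ ω.1) s ω.2))
      (((PMF.uniformOfFintype (Fin N)).toMeasure).prod (weightLaw K)) :=
    integrable_policyCost _ s σ hA
  refine ⟨hint, ?_⟩
  rw [integral_prod _ hint, PMF.integral_eq_sum]
  simp only [PMF.uniformOfFintype_apply, Fintype.card_fin, ENNReal.toReal_inv,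
    ENNReal.toReal_natCast, smul_eq_mul, ← mul_sum]
  have hserve : ∀ (σ' : List X) (P : Fin k → X) (c : ℕ → Fin k), 0 ≤ serveCost d P σ' c := by
    intro σ'
    induction σ' with
    | nil => intro P c; exact le_rfl
    | cons r σ' ih => intro P c; exact add_nonneg (hd _ _) (ih _ _)
  have h1 : ∀ i (c : ℕ → Fin k), ∫ θ, policyCost d s σ (policy (D i) (φ i) s θ) ∂weightLaw K ≤
      R * serveCost (D i) s σ c + Bf i := fun i c =>
    calc _ ≤ ∫ θ, policyCost (D i) s σ (policy (D i) (φ i) s θ) ∂weightLaw K :=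
          integral_mono (integrable_policyCost _ s σ fun h => measurable_policy (d := D i) (φ := φ i) s h)
            (integrable_policyCost _ s σ fun h => measurable_policy (d := D i) (φ := φ i) s h)
            fun θ => serveCost_mono (hdom i) σ s _
      _ = ∫ θ, policyCost (D i) s σ (policy (D i) (φ i) s θ) * dens θ := integral_weightLaw K _
      _ ≤ Γ * (scoreBound J l + 2 * k * ((scoreBound J l + 64 * lawConst) * Real.exp (-l))) *
            serveCost (D i) s σ c + Bf i := hBf i σ c
      _ ≤ _ := add_le_add (mul_le_mul_of_nonneg_right hR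
          ((hserve σ s c).trans (serveCost_mono (hdom i) σ s c))) le_rfl
  have hN0 : (0 : ℝ) < N := by exact_mod_cast NeZero.pos N
  have h3 : ∀ c : ℕ → Fin k,
      (N : ℝ)⁻¹ * ∑ i, ∫ θ, policyCost d s σ (policy (D i) (φ i) s θ) ∂weightLaw K ≤
        R * F * serveCost d s σ c + (N : ℝ)⁻¹ * ∑ i, Bf i := fun c =>
    calc _ ≤ (N : ℝ)⁻¹ * ∑ i, (R * serveCost (D i) s σ c + Bf i) :=
          mul_le_mul_of_nonneg_left (sum_le_sum fun i _ => h1 i c) (by positivity)
      _ = (N : ℝ)⁻¹ * R * ∑ i, serveCost (D i) s σ c + (N : ℝ)⁻¹ * ∑ i, Bf i := by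
          rw [sum_add_distrib, ← mul_sum]
          ring
      _ ≤ (N : ℝ)⁻¹ * R * ((N : ℝ) * F * serveCost d s σ c) + (N : ℝ)⁻¹ * ∑ i, Bf i :=
          add_le_add (mul_le_mul_of_nonneg_left (sum_serveCost_le hmean σ s c) (by positivity))
            le_rfl
      _ = _ := by
          field_simp
  have hC : 0 < R * F := mul_pos hR0 hF
  have h4 : ((N : ℝ)⁻¹ * ∑ i, ∫ θ, policyCost d s σ (policy (D i) (φ i) s θ) ∂weightLaw K -
      (N : ℝ)⁻¹ * ∑ i, Bf i) / (R * F) ≤ optCost d s σ :=
    le_ciInf fun c => (div_le_iff₀ hC).2 (by linarith [h3 c])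
  rw [div_le_iff₀ hC] at h4
  linarith

end

end Vale.P304
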