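import Vale.Agent.P304.Algo

/-!
P304: a random hierarchy of balls with geometric radii, the ultrametric it gives, and its
features.  A point has few features that point to it: on a branch of the hierarchy at most
`log₂ n` children hold at most half of their parent, and a run of the other children is one
feature.
-/

namespace Vale.P304

open Finset Function

noncomputable section

open scoped Classical

/-- The radius of the level `i`. -/
def rad (δ : ℝ) (i : ℕ) : ℝ := δ * 4 ^ i

lemma rad_pos {δ : ℝ} (hδ : 0 < δ) (i : ℕ) : 0 < rad δ i := by unfold rad; positivity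

lemma rad_succ (δ : ℝ) (i : ℕ) : rad δ (i + 1) = 4 * rad δ i := by
  rw [rad, rad, pow_succ]; ring

lemma rad_mono {δ : ℝ} (hδ : 0 ≤ δ) {i j : ℕ} (h : i ≤ j) : rad δ i ≤ rad δ j :=
  mul_le_mul_of_nonneg_left (pow_le_pow_right₀ (by norm_num) h) hδ

lemma sum_rad_le {δ : ℝ} (hδ : 0 < δ) (j : ℕ) :
    ∑ i ∈ range (j + 1), rad δ i ≤ 4 / 3 * rad δ j := by
  induction j with
  | zero => simp [rad]; linarith
  | succ j ih =>
    rw [sum_range_succ, rad_succ]
    linarith [rad_pos hδ j]

variable {X : Type*} [Fintype X] [Nonempty X] {d : X → X → ℝ} {δ : ℝ} {H n : ℕ}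

/-- The first point, in the order `e`, within `R` of `x`. -/
def cen (d : X → X → ℝ) (e : X ≃ Fin n) (R : ℝ) (x : X) : X :=
  argMin fun c => if d c x ≤ R then ((e c : ℕ) : ℝ) else (n : ℝ)

lemma cen_spec (hd : IsDist d) (e : X ≃ Fin n) {R : ℝ} (hR : 0 ≤ R) (x : X) :
    d (cen d e R x) x ≤ R ∧ ∀ c, d c x ≤ R → e (cen d e R x) ≤ e c := by
  have h := argMin_le fun c => if d c x ≤ R then ((e c : ℕ) : ℝ) else (n : ℝ)
  have hx : ((e x : ℕ) : ℝ) < n := Nat.cast_lt.2 (e x).isLt
  have h1 : d (cen d e R x) x ≤ R := by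
    by_contra h'
    have hh := h x
    rw [if_pos (show d x x ≤ R by rw [hd.refl]; exact hR)] at hh
    simp only [cen] at h'
    rw [if_neg h'] at hh
    linarith
  refine ⟨h1, fun c hc => ?_⟩
  have hh := h c
  simp only [cen] at h1
  rw [if_pos h1, if_pos hc] at hh
  exact Fin.le_def.2 (Nat.cast_le.1 hh)

/-- The same centres at all levels from `i` on. -/
def Agree (d : X → X → ℝ) (δ β : ℝ) (H : ℕ) (e : X ≃ Fin n) (i : ℕ) (x y : X) : Prop :=
  ∀ j ∈ Icc i H, cen d e (β * rad δ j) x = cen d e (β * rad δ j) y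

/-- Parameters of the hierarchy. -/
structure Scale (d : X → X → ℝ) (δ β : ℝ) (H : ℕ) : Prop where
  dist : IsDist d
  pos : 0 < δ
  one_le : 1 ≤ β
  lt_two : β < 2
  sep : ∀ x y, x ≠ y → 2 * δ ≤ d x y
  top : ∀ x y, d x y ≤ rad δ H

variable {β : ℝ} (e : X ≃ Fin n)

lemma Scale.radius_nonneg (hs : Scale d δ β H) (i : ℕ) : 0 ≤ β * rad δ i :=
  mul_nonneg (by linarith [hs.one_le]) (rad_pos hs.pos i).le

variable {e}

lemma agree_refl (i : ℕ) (x : X) : Agree d δ β H e i x x := fun _ _ => rfl

lemma Agree.symm {i : ℕ} {x y : X} (h : Agree d δ β H e i x y) : Agree d δ β H e i y x :=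
  fun j hj => (h j hj).symm

lemma Agree.trans {i : ℕ} {x y z : X} (h : Agree d δ β H e i x y)
    (h' : Agree d δ β H e i y z) : Agree d δ β H e i x z :=
  fun j hj => (h j hj).trans (h' j hj)

lemma Agree.mono {i j : ℕ} {x y : X} (h : Agree d δ β H e i x y) (hij : i ≤ j) :
    Agree d δ β H e j x y :=
  fun l hl => h l (mem_Icc.2 ⟨hij.trans (mem_Icc.1 hl).1, (mem_Icc.1 hl).2⟩)

lemma Scale.agree_top (hs : Scale d δ β H) (x y : X) : Agree d δ β H e H x y := by
  intro j hj
  have hjH : j = H := le_antisymm (mem_Icc.1 hj).2 (mem_Icc.1 hj).1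
  subst hjH
  have h : ∀ a b, d a b ≤ β * rad δ j := fun a b =>
    (hs.top a b).trans (le_mul_of_one_le_left (rad_pos hs.pos j).le hs.one_le)
  exact e.injective (le_antisymm ((cen_spec hs.dist e (hs.radius_nonneg j) x).2 _ (h _ _))
    ((cen_spec hs.dist e (hs.radius_nonneg j) y).2 _ (h _ _)))

lemma Scale.eq_of_agree (hs : Scale d δ β H) {x y : X} (h : Agree d δ β H e 0 x y) : x = y := by
  have h0 : ∀ z, cen d e (β * rad δ 0) z = z := fun z => by
    by_contra hne
    have h1 := (cen_spec hs.dist e (hs.radius_nonneg 0) z).1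
    have h2 := hs.sep _ _ hne
    have : rad δ 0 = δ := by simp [rad]
    nlinarith [hs.pos, hs.lt_two]
  have := h 0 (mem_Icc.2 ⟨le_rfl, Nat.zero_le H⟩)
  rwa [h0, h0] at this

lemma Scale.dist_le_of_agree (hs : Scale d δ β H) {i : ℕ} (hi : i ≤ H) {x y : X}
    (h : Agree d δ β H e i x y) : d x y ≤ 4 * rad δ i := by
  have h1 := (cen_spec hs.dist e (hs.radius_nonneg i) x).1
  have h2 := (cen_spec hs.dist e (hs.radius_nonneg i) y).1
  rw [← h i (mem_Icc.2 ⟨le_rfl, hi⟩)] at h2
  rw [hs.dist.symm] at h1
  nlinarith [hs.dist.tri x (cen d e (β * rad δ i) x) y, hs.lt_two, rad_pos hs.pos i]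

/-- The ultrametric of the hierarchy. -/
def treeDist (d : X → X → ℝ) (δ β : ℝ) (H : ℕ) (e : X ≃ Fin n) (x y : X) : ℝ :=
  16 * ∑ i ∈ range H, if Agree d δ β H e i x y then 0 else rad δ i

lemma Scale.exists_last (hs : Scale d δ β H) {x y : X} (h : x ≠ y) :
    ∃ m, m < H ∧ ¬ Agree d δ β H e m x y ∧ Agree d δ β H e (m + 1) x y := by
  have hex : ∃ i, Agree d δ β H e i x y := ⟨H, hs.agree_top x y⟩
  have hpos : Nat.find hex ≠ 0 := fun h0 => h (hs.eq_of_agree (h0 ▸ Nat.find_spec hex))
  have hle : Nat.find hex ≤ H := Nat.find_min' hex (hs.agree_top x y)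
  refine ⟨Nat.find hex - 1, by omega, Nat.find_min hex (by omega), ?_⟩
  rw [Nat.sub_add_cancel (by omega)]
  exact Nat.find_spec hex

lemma Scale.le_treeDist (hs : Scale d δ β H) (x y : X) : d x y ≤ treeDist d δ β H e x y := by
  have hnn : ∀ i ∈ range H, (0 : ℝ) ≤ if Agree d δ β H e i x y then 0 else rad δ i :=
    fun i _ => by split_ifs <;> [rfl; exact (rad_pos hs.pos i).le]
  rcases eq_or_ne x y with rfl | h
  · rw [hs.dist.refl]
    exact mul_nonneg (by norm_num) (sum_nonneg hnn)
  obtain ⟨m, hm, hna, ha⟩ := hs.exists_last (e := e) h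
  have h1 := single_le_sum hnn (mem_range.2 hm)
  rw [if_neg hna] at h1
  have h2 := hs.dist_le_of_agree hm ha
  rw [rad_succ] at h2
  rw [treeDist]
  linarith

lemma Scale.isDist_treeDist (hs : Scale d δ β H) : IsDist (treeDist d δ β H e) where
  refl x := by simp [treeDist, agree_refl]
  symm x y := by
    simp only [treeDist]
    congr 1
    refine sum_congr rfl fun i _ => ?_
    rw [show Agree d δ β H e i x y = Agree d δ β H e i y x from propext ⟨Agree.symm, Agree.symm⟩]
  tri x y z := by
    simp only [treeDist]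
    rw [← mul_add, ← sum_add_distrib]
    refine mul_le_mul_of_nonneg_left (sum_le_sum fun i _ => ?_) (by norm_num)
    have := rad_pos hs.pos i
    by_cases h1 : Agree d δ β H e i x y <;> by_cases h2 : Agree d δ β H e i y z
    · simp [h1, h2, h1.trans h2]
    all_goals simp only [h1, h2, if_true, if_false]; split_ifs <;> linarith

/-- The mean over levels is governed by the levels where the centres differ. -/
lemma Scale.treeDist_le (hs : Scale d δ β H) (x y : X) :
    treeDist d δ β H e x y ≤ 22 * ∑ j ∈ range H,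
      if cen d e (β * rad δ j) x = cen d e (β * rad δ j) y then 0 else rad δ j := by
  set q : ℕ → ℝ := fun j =>
    if cen d e (β * rad δ j) x = cen d e (β * rad δ j) y then 0 else 1
  have hq : ∀ j, 0 ≤ q j := fun j => by simp only [q]; split_ifs <;> norm_num
  have h1 : ∀ i ∈ range H, (if Agree d δ β H e i x y then 0 else rad δ i) ≤
      ∑ j ∈ range H, if i ≤ j then rad δ i * q j else 0 := by
    intro i hi
    have hnn : ∀ j ∈ range H, 0 ≤ if i ≤ j then rad δ i * q j else 0 := fun j _ => by
      split_ifs <;> [exact mul_nonneg (rad_pos hs.pos i).le (hq j); rfl]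
    split_ifs with h
    · exact sum_nonneg hnn
    · simp only [Agree, not_forall] at h
      obtain ⟨j, hj, hne⟩ := h
      have hjH : j < H := by
        refine lt_of_le_of_ne (mem_Icc.1 hj).2 fun e' => hne ?_
        subst e'
        exact hs.agree_top x y j (mem_Icc.2 ⟨le_rfl, le_rfl⟩)
      refine le_trans (le_of_eq ?_) (single_le_sum hnn (mem_range.2 hjH))
      simp [q, hne, (mem_Icc.1 hj).1]
  have h2 : ∀ j ∈ range H, (∑ i ∈ range H, if i ≤ j then rad δ i * q j else 0) ≤
      4 / 3 * (rad δ j * q j) := by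
    intro j hj
    rw [← sum_filter, ← sum_mul, ← mul_assoc]
    refine mul_le_mul_of_nonneg_right (le_trans (le_of_eq (sum_congr ?_ fun _ _ => rfl))
      (sum_rad_le hs.pos j)) (hq j)
    ext i
    simp only [mem_filter, mem_range] at hj ⊢
    omega
  have h3 : ∀ j, rad δ j * q j =
      if cen d e (β * rad δ j) x = cen d e (β * rad δ j) y then 0 else rad δ j := fun j => by
    simp only [q]; split_ifs <;> simp
  have h4 := sum_le_sum h1
  rw [sum_comm] at h4
  have h5 := h4.trans (sum_le_sum h2)
  rw [← mul_sum] at h5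
  have hnn : 0 ≤ ∑ j ∈ range H, rad δ j * q j :=
    sum_nonneg fun j _ => mul_nonneg (rad_pos hs.pos j).le (hq j)
  simp only [treeDist, ← h3]
  linarith

/-! ### The mean over orders and factors -/

lemma card_first {S : Finset X} {c : X} (hc : c ∈ S) :
    ((univ.filter fun e : X ≃ Fin n => ∀ c' ∈ S, e c ≤ e c').card : ℝ) * S.card =
      (Fintype.card (X ≃ Fin n) : ℝ) := by
  set A : X → Finset (X ≃ Fin n) := fun b => univ.filter fun e => ∀ c' ∈ S, e b ≤ e c'
  have hmem : ∀ b ∈ S, ∀ c' ∈ S, Equiv.swap c b c' ∈ S := fun b hb c' hc' => by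
    rw [Equiv.swap_apply_def]; split_ifs <;> assumption
  have hcard : ∀ b ∈ S, (A b).card = (A c).card := by
    intro b hb
    refine Finset.card_bij' (fun e _ => (Equiv.swap c b).trans e)
      (fun e _ => (Equiv.swap c b).trans e) ?_ ?_ ?_ ?_
    · intro e he
      simp only [A, mem_filter, mem_univ, true_and, Equiv.trans_apply, Equiv.swap_apply_left] at he ⊢
      exact fun c' hc' => he _ (hmem b hb c' hc')
    · intro e he
      simp only [A, mem_filter, mem_univ, true_and, Equiv.trans_apply, Equiv.swap_apply_right]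
        at he ⊢
      exact fun c' hc' => he _ (hmem b hb c' hc')
    · intro e _; ext z; simp
    · intro e _; ext z; simp
  have hdisj : (S : Set X).PairwiseDisjoint A := by
    intro a ha b hb hab
    refine Finset.disjoint_left.2 fun e h1 h2 => hab (e.injective ?_)
    simp only [A, mem_filter, mem_univ, true_and] at h1 h2
    exact le_antisymm (h1 b hb) (h2 a ha)
  have hunion : S.biUnion A = univ := by
    refine eq_univ_of_forall fun e => ?_
    obtain ⟨a, ha, hmin⟩ := exists_min_image S (fun z => e z) ⟨c, hc⟩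
    exact mem_biUnion.2 ⟨a, ha, mem_filter.2 ⟨mem_univ _, hmin⟩⟩
  have h := congrArg Finset.card hunion
  rw [card_biUnion hdisj, sum_congr rfl hcard, sum_const, smul_eq_mul, card_univ] at h
  rw [← h]
  push_cast
  ring

lemma sum_inv_rank_le (e₀ : X ≃ Fin n) (f : X → ℝ) :
    ∑ c, (((univ.filter fun c' => f c' ≤ f c).card : ℝ))⁻¹ ≤ 1 + Real.log n := by
  set σ := Tuple.sort (f ∘ e₀.symm) with hσ
  have hmono : Monotone ((f ∘ e₀.symm) ∘ σ) := Tuple.monotone_sort _
  have h : ∀ i : Fin n, ((i : ℕ) : ℝ) + 1 ≤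
      ((univ.filter fun c' => f c' ≤ f (e₀.symm (σ i))).card : ℝ) := by
    intro i
    have hsub : (Finset.Iic i).image (fun j => e₀.symm (σ j)) ⊆
        univ.filter fun c' => f c' ≤ f (e₀.symm (σ i)) := by
      intro z hz
      obtain ⟨j, hj, rfl⟩ := mem_image.1 hz
      exact mem_filter.2 ⟨mem_univ _, hmono (Finset.mem_Iic.1 hj)⟩
    have h := card_le_card hsub
    rw [card_image_of_injective (f := fun j => e₀.symm (σ j)) _
      (e₀.symm.injective.comp σ.injective), Fin.card_Iic] at h
    exact_mod_cast h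
  rw [← Equiv.sum_comp (σ.trans e₀.symm) fun c =>
    (((univ.filter fun c' => f c' ≤ f c).card : ℝ))⁻¹]
  calc ∑ i : Fin n, (((univ.filter fun c' => f c' ≤ f ((σ.trans e₀.symm) i)).card : ℝ))⁻¹
      ≤ ∑ i : Fin n, (((i : ℕ) : ℝ) + 1)⁻¹ :=
        sum_le_sum fun i _ => inv_anti₀ (by positivity) (h i)
    _ = (harmonic n : ℝ) := by
        rw [Fin.sum_univ_eq_sum_range (fun i : ℕ => ((i : ℝ) + 1)⁻¹), harmonic]
        push_cast
        rfl
    _ ≤ 1 + Real.log n := harmonic_le_one_add_log n

lemma card_grid_le {M : ℕ} (hM : 0 < M) {a b r : ℝ} (hr : 0 < r) (hab : a ≤ b) :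
    ((univ.filter fun m : Fin M => a ≤ (1 + (m : ℕ) / (M : ℝ)) * r ∧
      (1 + (m : ℕ) / (M : ℝ)) * r < b).card : ℝ) ≤ (b - a) * M / r + 1 := by
  set S := univ.filter fun m : Fin M => a ≤ (1 + (m : ℕ) / (M : ℝ)) * r ∧
      (1 + (m : ℕ) / (M : ℝ)) * r < b
  rcases S.eq_empty_or_nonempty with h | h
  · rw [h]
    simp only [card_empty, Nat.cast_zero]
    have : (0 : ℝ) ≤ b - a := by linarith
    positivity
  have h0 := (mem_filter.1 (S.min'_mem h)).2.1
  have h1 := (mem_filter.1 (S.max'_mem h)).2.2
  have hle : (S.min' h : ℕ) ≤ (S.max' h : ℕ) := Fin.le_def.1 (S.min'_le_max' h)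
  have hsub : S.card ≤ (S.max' h : ℕ) + 1 - (S.min' h : ℕ) := by
    rw [← Fin.card_Icc]
    exact card_le_card fun m hm => Finset.mem_Icc.2 ⟨S.min'_le m hm, S.le_max' m hm⟩
  have hcast : (S.card : ℝ) ≤ ((S.max' h : ℕ) : ℝ) + 1 - ((S.min' h : ℕ) : ℝ) := by
    have := (Nat.cast_le (α := ℝ)).2 hsub
    rwa [Nat.cast_sub (by omega), Nat.cast_add, Nat.cast_one] at this
  refine hcast.trans ?_
  have hM' : (0 : ℝ) < M := by exact_mod_cast hM
  have h2 : (((S.max' h : ℕ) : ℝ) - ((S.min' h : ℕ) : ℝ)) * (r / M) ≤ b - a := by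
    have e : (((S.max' h : ℕ) : ℝ) - ((S.min' h : ℕ) : ℝ)) * (r / M) =
        (1 + ((S.max' h : ℕ) : ℝ) / M) * r - (1 + ((S.min' h : ℕ) : ℝ) / M) * r := by ring
    linarith
  rw [← le_div_iff₀ (by positivity)] at h2
  rw [show (b - a) * M / r = (b - a) / (r / M) by field_simp]
  linarith

/-- The chance that a radius separates two values at distance at most `Δ`. -/
lemma sum_levels_le (hδ : 0 < δ) {a b Δ : ℝ} (hab : a ≤ b) (hba : b ≤ a + Δ) (hΔ : δ ≤ Δ) :
    ∑ j ∈ range H, rad δ j * ((univ.filter fun m : Fin (4 ^ H) =>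
      a ≤ (1 + (m : ℕ) / ((4 ^ H : ℕ) : ℝ)) * rad δ j ∧
      (1 + (m : ℕ) / ((4 ^ H : ℕ) : ℝ)) * rad δ j < b).card : ℝ) ≤
      5 * ((4 ^ H : ℕ) : ℝ) * Δ := by
  set M : ℕ := 4 ^ H with hMdef
  have hM : 0 < M := by positivity
  have hM' : (0 : ℝ) < M := by exact_mod_cast hM
  set N : ℕ → ℝ := fun j => ((univ.filter fun m : Fin M =>
    a ≤ (1 + (m : ℕ) / (M : ℝ)) * rad δ j ∧ (1 + (m : ℕ) / (M : ℝ)) * rad δ j < b).card : ℝ)
  have hN : ∀ j, N j ≤ M := fun j => by
    simp only [N]
    exact_mod_cast (card_filter_le _ _).trans (le_of_eq (by simp))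
  have hN0 : ∀ j, 0 ≤ N j := fun j => Nat.cast_nonneg _
  rw [← sum_filter_add_sum_filter_not (range H) fun j => rad δ j ≤ 2 * Δ]
  have hA : ∑ j ∈ (range H).filter (fun j => rad δ j ≤ 2 * Δ), rad δ j * N j ≤
      8 / 3 * Δ * M := by
    set T := (range H).filter (fun j => rad δ j ≤ 2 * Δ) with hT
    rcases T.eq_empty_or_nonempty with h | h
    · rw [h, sum_empty]
      nlinarith
    have hmax := (mem_filter.1 (T.max'_mem h)).2
    calc ∑ j ∈ T, rad δ j * N j ≤ ∑ j ∈ T, rad δ j * M :=
          sum_le_sum fun j _ => mul_le_mul_of_nonneg_left (hN j) (rad_pos hδ j).le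
      _ = (∑ j ∈ T, rad δ j) * M := by rw [sum_mul]
      _ ≤ _ := by
          refine mul_le_mul_of_nonneg_right ?_ hM'.le
          refine (sum_le_sum_of_subset_of_nonneg (t := range (T.max' h + 1))
            (fun j hj => mem_range.2 (Nat.lt_succ_of_le (T.le_max' j hj)))
            fun j _ _ => (rad_pos hδ j).le).trans ((sum_rad_le hδ _).trans ?_)
          linarith
  set P := ((range H).filter (fun j => ¬ rad δ j ≤ 2 * Δ)).filter
    (fun j => rad δ j * N j ≠ 0)
  have hP : ∀ j ∈ P, j < H ∧ 2 * Δ < rad δ j ∧ a < 2 * rad δ j ∧ rad δ j < b := by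
    intro j hj
    obtain ⟨hj1, hj2⟩ := mem_filter.1 hj
    obtain ⟨hj3, hj4⟩ := mem_filter.1 hj1
    have hne : (univ.filter fun m : Fin M => a ≤ (1 + (m : ℕ) / (M : ℝ)) * rad δ j ∧
        (1 + (m : ℕ) / (M : ℝ)) * rad δ j < b).Nonempty := by
      rw [← card_pos, Nat.pos_iff_ne_zero]
      exact fun h => hj2 (by simp [N, h])
    obtain ⟨m, hm⟩ := hne
    obtain ⟨hma, hmb⟩ := (mem_filter.1 hm).2
    have hm1 : ((m : ℕ) : ℝ) / M < 1 := (div_lt_one hM').2 (by exact_mod_cast m.isLt)
    have hm0 : (0 : ℝ) ≤ ((m : ℕ) : ℝ) / M := by positivity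
    have := rad_pos hδ j
    exact ⟨mem_range.1 hj3, not_le.1 hj4, by nlinarith, by nlinarith⟩
  have hP1 : P.card ≤ 1 := card_le_one.2 fun i hi j hj => by
    obtain ⟨-, hi1, hi2, hi3⟩ := hP i hi
    obtain ⟨-, hj1, hj2, hj3⟩ := hP j hj
    rcases lt_trichotomy i j with h | h | h
    · have h4 : rad δ (i + 1) ≤ rad δ j := rad_mono hδ.le h
      rw [rad_succ] at h4
      linarith
    · exact h
    · have h4 : rad δ (j + 1) ≤ rad δ i := rad_mono hδ.le h
      rw [rad_succ] at h4
      linarith
  have hB : ∑ j ∈ (range H).filter (fun j => ¬ rad δ j ≤ 2 * Δ), rad δ j * N j ≤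
      2 * Δ * M := by
    rw [← sum_filter_ne_zero]
    calc ∑ j ∈ P, rad δ j * N j ≤ ∑ _j ∈ P, 2 * Δ * M := by
          refine sum_le_sum fun j hj => ?_
          have hr := rad_pos hδ j
          have h := mul_le_mul_of_nonneg_left
            (card_grid_le hM (r := rad δ j) hr hab) hr.le
          refine h.trans ?_
          rw [mul_add, mul_div_cancel₀ _ hr.ne', mul_one]
          have hj : rad δ j ≤ δ * M := by
            refine (rad_mono hδ.le (hP j hj).1.le).trans (le_of_eq ?_)
            simp [rad, hMdef]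
          nlinarith
      _ = (P.card : ℝ) * (2 * Δ * M) := by rw [sum_const, nsmul_eq_mul]
      _ ≤ 1 * (2 * Δ * M) := by
          refine mul_le_mul_of_nonneg_right (by exact_mod_cast hP1) ?_
          have : 0 < Δ := lt_of_lt_of_le hδ hΔ
          positivity
      _ = _ := one_mul _
  have : 0 < Δ * M := mul_pos (lt_of_lt_of_le hδ hΔ) hM'
  linarith

/-- The factor of the `m`-th of `4 ^ H` draws. -/
def factor (H : ℕ) (m : Fin (4 ^ H)) : ℝ := 1 + (m : ℕ) / ((4 ^ H : ℕ) : ℝ)

lemma factor_mem (H : ℕ) (m : Fin (4 ^ H)) : 1 ≤ factor H m ∧ factor H m < 2 := by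
  have h1 : ((m : ℕ) : ℝ) / ((4 ^ H : ℕ) : ℝ) < 1 :=
    (div_lt_one (by positivity)).2 (by exact_mod_cast m.isLt)
  have h2 : (0 : ℝ) ≤ ((m : ℕ) : ℝ) / ((4 ^ H : ℕ) : ℝ) := by positivity
  exact ⟨by unfold factor; linarith, by unfold factor; linarith⟩

/-- The mean of the ultrametric over orders and factors. -/
theorem sum_treeDist_le (hd : IsDist d) (hδ : 0 < δ) (hsep : ∀ x y, x ≠ y → 2 * δ ≤ d x y)
    (htop : ∀ x y, d x y ≤ rad δ H) (hn : Fintype.card X = n) (x y : X) :
    ∑ p : (X ≃ Fin n) × Fin (4 ^ H), treeDist d δ (factor H p.2) H p.1 x y ≤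
      (Fintype.card ((X ≃ Fin n) × Fin (4 ^ H)) : ℝ) * (110 * (1 + Real.log n)) * d x y := by
  have hs : ∀ m, Scale d δ (factor H m) H := fun m =>
    ⟨hd, hδ, (factor_mem H m).1, (factor_mem H m).2, hsep, htop⟩
  rcases eq_or_ne x y with rfl | hxy
  · simp [treeDist, agree_refl, hd.refl]
  have e₀ : X ≃ Fin n := Fintype.equivFinOfCardEq hn
  set Δ := d x y with hΔ
  have hΔδ : δ ≤ Δ := by linarith [hsep x y hxy]
  set mn : X → ℝ := fun c => min (d c x) (d c y)
  set mx : X → ℝ := fun c => max (d c x) (d c y)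
  set first : X → (X ≃ Fin n) → ℝ := fun c e =>
    if ∀ c' ∈ univ.filter (fun c' => mn c' ≤ mn c), e c ≤ e c' then 1 else 0
  set hit : X → ℕ → Fin (4 ^ H) → ℝ := fun c j m =>
    if mn c ≤ factor H m * rad δ j ∧ factor H m * rad δ j < mx c then 1 else 0
  -- a separating level has a first separating point
  have key : ∀ (e : X ≃ Fin n) (m : Fin (4 ^ H)) (j : ℕ),
      (if cen d e (factor H m * rad δ j) x = cen d e (factor H m * rad δ j) y then (0 : ℝ) else 1) ≤
        ∑ c, first c e * hit c j m := by
    intro e m j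
    have hnn : ∀ c ∈ (univ : Finset X), 0 ≤ first c e * hit c j m := fun c _ =>
      mul_nonneg (by simp only [first]; split_ifs <;> norm_num)
        (by simp only [hit]; split_ifs <;> norm_num)
    split_ifs with h
    · exact sum_nonneg hnn
    set R := factor H m * rad δ j
    have hR : 0 ≤ R := (hs m).radius_nonneg j
    obtain ⟨hx1, hx2⟩ := cen_spec hd e hR x
    obtain ⟨hy1, hy2⟩ := cen_spec hd e hR y
    have main : ∀ c, (∀ z, d z x ≤ R → e c ≤ e z) → (∀ z, d z y ≤ R → e c ≤ e z) →
        mn c ≤ R → R < mx c → (1 : ℝ) ≤ ∑ c, first c e * hit c j m := by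
      intro c h1 h2 h3 h4
      refine le_trans (le_of_eq ?_) (single_le_sum hnn (mem_univ c))
      have hf : ∀ c' ∈ univ.filter (fun c' => mn c' ≤ mn c), e c ≤ e c' := fun c' hc' => by
        rcases min_le_iff.1 ((mem_filter.1 hc').2.trans h3) with h5 | h5
        · exact h1 c' h5
        · exact h2 c' h5
      simp only [first, hit]
      rw [if_pos hf, if_pos ⟨h3, h4⟩, mul_one]
    rcases le_total (e (cen d e R x)) (e (cen d e R y)) with hle | hle
    · refine main _ hx2 (fun z hz => hle.trans (hy2 z hz)) ((min_le_left _ _).trans hx1)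
        (lt_max_iff.2 (Or.inr (lt_of_not_ge fun h' => h (e.injective ?_))))
      exact le_antisymm hle (hy2 _ h')
    · refine main _ (fun z hz => hle.trans (hx2 z hz)) hy2 ((min_le_right _ _).trans hy1)
        (lt_max_iff.2 (Or.inl (lt_of_not_ge fun h' => h (e.injective ?_))))
      exact le_antisymm (hx2 _ h') hle
  have hbound : ∀ e m, treeDist d δ (factor H m) H e x y ≤
      22 * ∑ c, first c e * ∑ j ∈ range H, rad δ j * hit c j m := by
    intro e m
    refine ((hs m).treeDist_le x y).trans (mul_le_mul_of_nonneg_left ?_ (by norm_num))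
    simp only [mul_sum]
    rw [sum_comm]
    refine sum_le_sum fun j _ => ?_
    calc (if cen d e (factor H m * rad δ j) x = cen d e (factor H m * rad δ j) y then (0 : ℝ)
            else rad δ j)
        = rad δ j * (if cen d e (factor H m * rad δ j) x = cen d e (factor H m * rad δ j) y
            then (0 : ℝ) else 1) := by split_ifs <;> simp
      _ ≤ rad δ j * ∑ c, first c e * hit c j m :=
            mul_le_mul_of_nonneg_left (key e m j) (rad_pos hδ j).le
      _ = _ := by rw [mul_sum]; exact sum_congr rfl fun c _ => by ring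
  have hlev : ∀ c, ∑ m, ∑ j ∈ range H, rad δ j * hit c j m ≤ 5 * ((4 ^ H : ℕ) : ℝ) * Δ := by
    intro c
    rw [sum_comm]
    refine le_trans (le_of_eq ?_) (sum_levels_le (H := H) hδ (a := mn c) (b := mx c)
      min_le_max ?_ hΔδ)
    · refine sum_congr rfl fun j _ => ?_
      rw [← mul_sum]
      simp only [hit, factor]
      congr 1
      rw [natCast_card_filter]
      refine sum_congr rfl fun m _ => ?_
      congr
    · simp only [mx, mn]
      have := hd.tri c x y
      have := hd.tri c y x
      have := hd.symm x y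
      rcases le_total (d c x) (d c y) with h | h
      · rw [max_eq_right h, min_eq_left h]; linarith
      · rw [max_eq_left h, min_eq_right h]; linarith
  have hfirst : ∀ c, ∑ e, first c e = (Fintype.card (X ≃ Fin n) : ℝ) *
      (((univ.filter fun c' => mn c' ≤ mn c).card : ℝ))⁻¹ := by
    intro c
    have hc : c ∈ univ.filter fun c' => mn c' ≤ mn c := by simp
    have hne : ((univ.filter fun c' => mn c' ≤ mn c).card : ℝ) ≠ 0 :=
      Nat.cast_ne_zero.2 (card_ne_zero.2 ⟨c, hc⟩)
    rw [← card_first (n := n) hc]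
    simp only [first, sum_boole]
    field_simp
  calc ∑ p : (X ≃ Fin n) × Fin (4 ^ H), treeDist d δ (factor H p.2) H p.1 x y
      = ∑ e, ∑ m, treeDist d δ (factor H m) H e x y := Fintype.sum_prod_type _
    _ ≤ ∑ e, ∑ m, 22 * ∑ c, first c e * ∑ j ∈ range H, rad δ j * hit c j m :=
        sum_le_sum fun e _ => sum_le_sum fun m _ => hbound e m
    _ = 22 * ∑ c, (∑ e, first c e) * ∑ m, ∑ j ∈ range H, rad δ j * hit c j m := by
        simp only [← mul_sum]
        congr 1
        simp only [sum_mul]
        simp only [mul_sum]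
        refine (sum_congr rfl fun e _ => sum_comm).trans ?_
        rw [sum_comm]
    _ ≤ 22 * ∑ c, ((Fintype.card (X ≃ Fin n) : ℝ) *
          (((univ.filter fun c' => mn c' ≤ mn c).card : ℝ))⁻¹) *
            (5 * ((4 ^ H : ℕ) : ℝ) * Δ) := by
        refine mul_le_mul_of_nonneg_left (sum_le_sum fun c _ => ?_) (by norm_num)
        rw [hfirst]
        exact mul_le_mul_of_nonneg_left (hlev c) (by positivity)
    _ = 110 * (Fintype.card (X ≃ Fin n) : ℝ) * ((4 ^ H : ℕ) : ℝ) * Δ *
          ∑ c, (((univ.filter fun c' => mn c' ≤ mn c).card : ℝ))⁻¹ := by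
        rw [mul_sum, mul_sum]
        exact sum_congr rfl fun c _ => by ring
    _ ≤ 110 * (Fintype.card (X ≃ Fin n) : ℝ) * ((4 ^ H : ℕ) : ℝ) * Δ * (1 + Real.log n) := by
        have : 0 < Δ := lt_of_lt_of_le hδ hΔδ
        exact mul_le_mul_of_nonneg_left (sum_inv_rank_le e₀ mn) (by positivity)
    _ = _ := by
        simp only [Fintype.card_prod, Fintype.card_fin, Nat.cast_mul]
        ring

/-! ### Features -/

section features

variable (d : X → X → ℝ) (δ β : ℝ) (H : ℕ) (e : X ≃ Fin n)

/-- The cluster of `x` at level `i`. -/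
def clus (i : ℕ) (x : X) : Finset X := univ.filter (Agree d δ β H e i x)

/-- The cluster holds at most half of the next one. -/
def Light (i : ℕ) (x : X) : Prop :=
  2 * (clus d δ β H e i x).card ≤ (clus d δ β H e (i + 1) x).card

/-- The first light level from `i` on, or `H`. -/
def runTop (i : ℕ) (x : X) : ℕ :=
  Nat.find (p := fun j => i ≤ j ∧ (Light d δ β H e j x ∨ H ≤ j))
    ⟨max i H, le_max_left _ _, Or.inr (le_max_right _ _)⟩

/-- The feature of `x` at level `i`. -/
def feature (i : ℕ) (x : X) : Fin (H + 1) × Finset X × Bool :=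
  if Light d δ β H e i x then
    (⟨min i H, Nat.lt_succ_of_le (min_le_right _ _)⟩, clus d δ β H e i x, true)
  else
    (⟨min (runTop d δ β H e i x) H, Nat.lt_succ_of_le (min_le_right _ _)⟩,
      clus d δ β H e (runTop d δ β H e i x) x, false)

/-- The coefficient of a feature at a point. -/
def coef (x : X) (f : Fin (H + 1) × Finset X × Bool) : ℝ :=
  8 * ∑ i ∈ range H, if feature d δ β H e i x = f then rad δ i else 0

variable {d δ β H e}

lemma pert_coef (θ : Fin (H + 1) × Finset X × Bool → ℝ) (x : X) :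
    pert (coef d δ β H e) θ x = 8 * ∑ i ∈ range H, rad δ i * θ (feature d δ β H e i x) := by
  simp only [pert, coef, mul_sum, sum_mul]
  rw [sum_comm]
  refine sum_congr rfl fun i _ => ?_
  simp [mul_ite, ite_mul, mul_assoc]

lemma clus_eq {i : ℕ} {x y : X} (h : Agree d δ β H e i x y) :
    clus d δ β H e i x = clus d δ β H e i y := by
  ext z
  simp only [clus, mem_filter, mem_univ, true_and]
  exact ⟨fun hz => h.symm.trans hz, fun hz => h.trans hz⟩

lemma feature_eq {i : ℕ} {x y : X} (h : Agree d δ β H e i x y) :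
    feature d δ β H e i x = feature d δ β H e i y := by
  have hL : ∀ j, i ≤ j → (Light d δ β H e j x ↔ Light d δ β H e j y) := fun j hj => by
    rw [Light, Light, clus_eq (h.mono hj), clus_eq (h.mono (hj.trans (Nat.le_succ j)))]
  have ht : runTop d δ β H e i x = runTop d δ β H e i y := by
    simp only [runTop]
    apply Nat.find_congr'
    intro j
    exact and_congr_right fun hj => or_congr_left (hL j hj)
  have hti : i ≤ runTop d δ β H e i x := by
    rw [runTop]
    exact (Nat.find_spec (p := fun j => i ≤ j ∧ (Light d δ β H e j x ∨ H ≤ j)) _).1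
  simp only [feature, hL i le_rfl, clus_eq h, clus_eq (h.mono hti)]
  simp only [ht]

lemma pertLip_coef (hδ : 0 < δ) : PertLip (treeDist d δ β H e) (coef d δ β H e) := by
  intro θ hθ x y
  rw [pert_coef, pert_coef, treeDist, mul_sum, mul_sum, mul_sum, ← sum_add_distrib]
  refine sum_le_sum fun i _ => ?_
  split_ifs with h
  · simp [feature_eq h]
  · have h1 := abs_le.1 (hθ (feature d δ β H e i x))
    have h2 := abs_le.1 (hθ (feature d δ β H e i y))
    have := rad_pos hδ i
    nlinarith

lemma two_pow_light_le (x : X) (i : ℕ) :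
    2 ^ ((range i).filter fun j => Light d δ β H e j x).card ≤ (clus d δ β H e i x).card := by
  induction i with
  | zero =>
    simp only [range_zero, filter_empty, card_empty, pow_zero]
    exact card_pos.2 ⟨x, mem_filter.2 ⟨mem_univ _, agree_refl _ _⟩⟩
  | succ i ih =>
    rw [range_add_one, filter_insert]
    split_ifs with h
    · rw [card_insert_of_notMem (by simp), pow_succ]
      have : 2 * (clus d δ β H e i x).card ≤ (clus d δ β H e (i + 1) x).card := h
      omega
    · refine ih.trans (card_le_card fun z hz => ?_)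
      simp only [clus, mem_filter, mem_univ, true_and] at hz ⊢
      exact hz.mono (Nat.le_succ i)

/-- The hierarchy satisfies the assumptions of the algorithm. -/
theorem pert_tree (hs : Scale d δ β H) (hn : Fintype.card X = n) :
    Pert (treeDist d δ β H e) (coef d δ β H e) 3 (4 * (1 + Real.log n)) := by
  refine ⟨pertLip_coef hs.pos, by norm_num, fun r => ?_⟩
  set Fr := (range H).image fun i => feature d δ β H e i r with hFr
  refine ⟨fun f => if f ∈ Fr then (if f.2.2 then 2 else 1) else 0, ?_, ?_, ?_⟩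
  · intro f
    dsimp only
    split_ifs <;> norm_num
  · set L := (range H).filter fun i => Light d δ β H e i r with hL
    have hsub : (univ.filter fun f : Fin (H + 1) × Finset X × Bool =>
        (if f ∈ Fr then (if f.2.2 then (2 : ℝ) else 1) else 0) ≠ 0) ⊆
        L.image (fun i => ((⟨min i H, Nat.lt_succ_of_le (min_le_right _ _)⟩ : Fin (H + 1)),
          clus d δ β H e i r, true)) ∪
        (insert H L).image (fun i => ((⟨min i H, Nat.lt_succ_of_le (min_le_right _ _)⟩ :
          Fin (H + 1)), clus d δ β H e i r, false)) := by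
      intro f hf
      obtain ⟨-, hf⟩ := mem_filter.1 hf
      have hfF : f ∈ Fr := by
        by_contra h
        exact hf (if_neg h)
      obtain ⟨i, hi, rfl⟩ := mem_image.1 hfF
      rw [mem_range] at hi
      by_cases hl : Light d δ β H e i r
      · refine mem_union_left _ (mem_image.2 ⟨i, mem_filter.2 ⟨mem_range.2 hi, hl⟩, ?_⟩)
        rw [feature, if_pos hl]
      · refine mem_union_right _ (mem_image.2 ⟨runTop d δ β H e i r, ?_, ?_⟩)
        · have hex : ∃ j, i ≤ j ∧ (Light d δ β H e j r ∨ H ≤ j) := ⟨H, hi.le, Or.inr le_rfl⟩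
          have hle : runTop d δ β H e i r ≤ H := Nat.find_min' _ ⟨hi.le, Or.inr le_rfl⟩
          rcases lt_or_eq_of_le hle with hlt | heq
          · refine mem_insert_of_mem (mem_filter.2 ⟨mem_range.2 hlt, ?_⟩)
            have := (Nat.find_spec hex).2
            rcases this with h | h
            · exact h
            · exact absurd hlt (not_lt.2 h)
          · exact mem_insert.2 (Or.inl heq)
        · rw [feature, if_neg hl]
    have hcard := (card_le_card hsub).trans ((card_union_le _ _).trans (add_le_add card_image_le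
      (card_image_le.trans (card_insert_le _ _))))
    have hpow : 2 ^ L.card ≤ n := by
      refine (two_pow_light_le r H).trans ?_
      exact (card_le_univ _).trans hn.le
    have hlog : (L.card : ℝ) * Real.log 2 ≤ Real.log n := by
      rw [← Real.log_pow]
      exact Real.log_le_log (by positivity) (by exact_mod_cast hpow)
    have h2 := Real.log_two_gt_d9
    refine le_trans (Nat.cast_le.2 hcard) ?_
    push_cast
    nlinarith [Nat.cast_nonneg (α := ℝ) L.card]
  · intro x
    rcases eq_or_ne x r with rfl | hxr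
    · simp [treeDist, agree_refl]
    obtain ⟨m, hm, hna, ha⟩ := hs.exists_last (e := e) hxr
    set c : Fin (H + 1) × Finset X × Bool → ℝ :=
      fun f => if f ∈ Fr then (if f.2.2 then 2 else 1) else 0 with hc
    have hr1 : ∀ i, i < H → c (feature d δ β H e i r) =
        if Light d δ β H e i r then 2 else 1 := by
      intro i hi
      simp only [hc]
      rw [if_pos (mem_image_of_mem _ (mem_range.2 hi))]
      by_cases hl : Light d δ β H e i r <;> simp [feature, hl]
    have hxl : ∀ i, i < H → ¬ Agree d δ β H e i x r → Light d δ β H e i x →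
        c (feature d δ β H e i x) = 0 := by
      intro i hi hna' hl
      simp only [hc]
      rw [if_neg]
      intro hmem
      obtain ⟨i', hi', he⟩ := mem_image.1 hmem
      rw [mem_range] at hi'
      simp only [feature, if_pos hl] at he
      split_ifs at he with hl'
      · simp only [Prod.mk.injEq, Fin.mk.injEq, and_true] at he
        have hii : i' = i := by omega
        subst hii
        have : r ∈ clus d δ β H e i' x := by
          rw [← he.2]
          exact mem_filter.2 ⟨mem_univ _, agree_refl _ _⟩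
        exact hna' (mem_filter.1 this).2
      · simp at he
    have hxh : ∀ i, ¬ Light d δ β H e i x → c (feature d δ β H e i x) ≤ 1 := by
      intro i hl
      simp only [hc, feature, if_neg hl]
      split_ifs <;> simp_all
    have hdiff : ∀ i ∈ range H, (if i = m then rad δ i else 0) ≤
        rad δ i * c (feature d δ β H e i r) - rad δ i * c (feature d δ β H e i x) := by
      intro i hi
      rw [mem_range] at hi
      rw [← mul_sub]
      have hr := rad_pos hs.pos i
      by_cases hag : Agree d δ β H e i x r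
      · rw [if_neg (fun h : i = m => hna (by rw [← h]; exact hag)), feature_eq hag, sub_self, mul_zero]
      split_ifs with him
      · subst him
        refine le_mul_of_one_le_right hr.le ?_
        rw [hr1 i hi]
        by_cases hl : Light d δ β H e i r
        · rw [if_pos hl]
          by_cases hl' : Light d δ β H e i x
          · linarith [hxl i hi hag hl']
          · linarith [hxh i hl']
        · rw [if_neg hl]
          have hl' : Light d δ β H e i x := by
            by_contra hl'
            rw [Light] at hl hl'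
            rw [clus_eq ha] at hl'
            have hdisj : Disjoint (clus d δ β H e i x) (clus d δ β H e i r) := by
              rw [Finset.disjoint_left]
              intro z h1 h2
              exact hag ((mem_filter.1 h1).2.trans (mem_filter.1 h2).2.symm)
            have hsub : clus d δ β H e i x ∪ clus d δ β H e i r ⊆
                clus d δ β H e (i + 1) r := by
              intro z hz
              refine mem_filter.2 ⟨mem_univ _, ?_⟩
              rcases mem_union.1 hz with h | h
              · exact ha.symm.trans ((mem_filter.1 h).2.mono (Nat.le_succ i))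
              · exact (mem_filter.1 h).2.mono (Nat.le_succ i)
            have := card_le_card hsub
            rw [card_union_of_disjoint hdisj] at this
            omega
          linarith [hxl i hi hag hl']
      · refine mul_nonneg hr.le ?_
        rw [hr1 i hi]
        by_cases hl' : Light d δ β H e i x
        · rw [hxl i hi hag hl']
          split_ifs <;> norm_num
        · have := hxh i hl'
          split_ifs <;> linarith
    have hsum := sum_le_sum hdiff
    rw [sum_ite_eq' (range H) m fun i => rad δ i, if_pos (mem_range.2 hm),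
      sum_sub_distrib] at hsum
    have htd : treeDist d δ β H e x r ≤ 16 * (4 / 3 * rad δ m) := by
      rw [treeDist]
      refine mul_le_mul_of_nonneg_left ?_ (by norm_num)
      calc (∑ i ∈ range H, if Agree d δ β H e i x r then 0 else rad δ i)
          ≤ ∑ i ∈ range H, if i ≤ m then rad δ i else 0 := sum_le_sum fun i _ => by
            have := rad_pos hs.pos i
            by_cases h : i ≤ m
            · rw [if_pos h]; split_ifs <;> linarith
            · rw [if_neg h, if_pos (ha.mono (by omega))]
        _ ≤ _ := by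
            rw [← sum_filter]
            refine (sum_le_sum_of_subset_of_nonneg (t := range (m + 1)) (fun i hi => ?_)
              fun i _ _ => (rad_pos hs.pos i).le).trans (sum_rad_le hs.pos m)
            simp only [mem_filter, mem_range] at hi ⊢
            omega
    rw [pert_coef, pert_coef]
    linarith [rad_pos hs.pos m]

end features

end

end Vale.P304
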