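import Mathlib

/-!
P304: work functions of the server problem on a finite space.  They are symmetric, move by at most
the distance when one server moves, and are quasi-convex; this gives the bound of Koutsoupias and
Papadimitriou on the extended cost, and one-server exchanges between minimisers of perturbed
work functions.
-/

namespace Vale.P304

open Finset Function

noncomputable section

variable {X : Type*} {k : ℕ}

/-- A distance function. -/
structure IsDist (d : X → X → ℝ) : Prop where
  refl : ∀ x, d x x = 0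
  symm : ∀ x y, d x y = d y x
  tri : ∀ x y z, d x z ≤ d x y + d y z

lemma IsDist.nonneg {d : X → X → ℝ} (hd : IsDist d) (x y : X) : 0 ≤ d x y := by
  have h1 := hd.tri x y x
  have h2 := hd.symm x y
  have h3 := hd.refl x
  linarith

/-- The least total distance of a matching of two configurations. -/
def matchDist (d : X → X → ℝ) (A B : Fin k → X) : ℝ :=
  univ.inf' univ_nonempty fun σ : Equiv.Perm (Fin k) => ∑ i, d (A i) (B (σ i))

variable [NeZero k]

/-- One step of the work function. -/
def wstep (d : X → X → ℝ) (w : (Fin k → X) → ℝ) (r : X) (C : Fin k → X) : ℝ :=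
  univ.inf' univ_nonempty fun i : Fin k => w (update C i r) + d r (C i)

/-- The work function after the requests `l`. -/
def workFn (d : X → X → ℝ) (s : Fin k → X) (l : List X) : (Fin k → X) → ℝ :=
  l.foldl (wstep d) (matchDist d s)

/-- `Q` picks from `A`, the complement from `B`. -/
def mix (Q : Finset (Fin k)) (A B : Fin k → X) : Fin k → X :=
  fun i => if i ∈ Q then A i else B i

omit [NeZero k] in
lemma sum_mix (f : X → ℝ) (Q : Finset (Fin k)) (A B : Fin k → X) :
    ∑ i, f (mix Q A B i) + ∑ i, f (mix Qᶜ A B i) = ∑ i, f (A i) + ∑ i, f (B i) := by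
  rw [← sum_add_distrib, ← sum_add_distrib]
  refine sum_congr rfl fun i _ => ?_
  by_cases h : i ∈ Q <;> simp [mix, h, add_comm]

/-- The properties of work functions. -/
structure IsWork (d : X → X → ℝ) (w : (Fin k → X) → ℝ) : Prop where
  perm : ∀ (C : Fin k → X) (σ : Equiv.Perm (Fin k)), w (C ∘ σ) = w C
  lip : ∀ (C : Fin k → X) (i : Fin k) (x : X), w (update C i x) ≤ w C + d (C i) x
  exch : ∀ A B : Fin k → X, ∃ σ : Equiv.Perm (Fin k), ∀ Q : Finset (Fin k),
    w (mix Q A (B ∘ σ)) + w (mix Qᶜ A (B ∘ σ)) ≤ w A + w B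
  nonneg : ∀ C, 0 ≤ w C

variable {d : X → X → ℝ}

omit [NeZero k] in
lemma matchDist_le (A B : Fin k → X) (σ : Equiv.Perm (Fin k)) :
    matchDist d A B ≤ ∑ i, d (A i) (B (σ i)) :=
  inf'_le (fun σ : Equiv.Perm (Fin k) => ∑ i, d (A i) (B (σ i))) (mem_univ σ)

omit [NeZero k] in
lemma matchDist_attained (A B : Fin k → X) :
    ∃ σ : Equiv.Perm (Fin k), matchDist d A B = ∑ i, d (A i) (B (σ i)) := by
  obtain ⟨σ, -, h⟩ := exists_mem_eq_inf' univ_nonempty
    fun σ : Equiv.Perm (Fin k) => ∑ i, d (A i) (B (σ i))
  exact ⟨σ, h⟩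

omit [NeZero k] in
lemma isWork_matchDist (hd : IsDist d) (s : Fin k → X) : IsWork d (matchDist d s) where
  perm C τ := by
    refine le_antisymm ?_ ?_
    · obtain ⟨σ, hσ⟩ := matchDist_attained (d := d) s C
      rw [hσ]
      refine (matchDist_le s (C ∘ τ) (τ⁻¹ * σ)).trans (le_of_eq ?_)
      simp
    · obtain ⟨σ, hσ⟩ := matchDist_attained (d := d) s (C ∘ τ)
      rw [hσ]
      exact (matchDist_le s C (τ * σ)).trans (le_of_eq (by simp))
  lip C i x := by
    obtain ⟨σ, hσ⟩ := matchDist_attained (d := d) s C
    rw [hσ]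
    refine (matchDist_le s (update C i x) σ).trans ?_
    rw [← add_sum_erase _ _ (mem_univ (σ⁻¹ i)), ← add_sum_erase _ _ (mem_univ (σ⁻¹ i))]
    have h : ∀ j ∈ univ.erase (σ⁻¹ i), d (s j) (update C i x (σ j)) = d (s j) (C (σ j)) := by
      intro j hj
      rw [update_of_ne fun e => (mem_erase.1 hj).1 (by simp [← e])]
    rw [sum_congr rfl h]
    simp only [show σ (σ⁻¹ i) = i by simp, update_self]
    linarith [hd.tri (s (σ⁻¹ i)) (C i) x]
  exch A B := by
    obtain ⟨σA, hA⟩ := matchDist_attained (d := d) s A
    obtain ⟨σB, hB⟩ := matchDist_attained (d := d) s B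
    refine ⟨σB * σA⁻¹, fun Q => ?_⟩
    refine (add_le_add (matchDist_le s _ σA) (matchDist_le s _ σA)).trans (le_of_eq ?_)
    rw [hA, hB, ← sum_add_distrib, ← sum_add_distrib]
    refine sum_congr rfl fun i _ => ?_
    by_cases h : σA i ∈ Q <;> simp [mix, h, add_comm]
  nonneg C := le_inf' _ _ fun σ _ => sum_nonneg fun i _ => hd.nonneg _ _

lemma wstep_le (w : (Fin k → X) → ℝ) (r : X) (C : Fin k → X) (i : Fin k) :
    wstep d w r C ≤ w (update C i r) + d r (C i) :=
  inf'_le (fun i : Fin k => w (update C i r) + d r (C i)) (mem_univ i)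

lemma wstep_attained (w : (Fin k → X) → ℝ) (r : X) (C : Fin k → X) :
    ∃ i, wstep d w r C = w (update C i r) + d r (C i) := by
  obtain ⟨i, -, h⟩ := exists_mem_eq_inf' univ_nonempty
    fun i : Fin k => w (update C i r) + d r (C i)
  exact ⟨i, h⟩

namespace IsWork

variable {w : (Fin k → X) → ℝ}

lemma le_wstep (hw : IsWork d w) (r : X) (C : Fin k → X) : w C ≤ wstep d w r C :=
  le_inf' _ _ fun i _ => by
    have := hw.lip (update C i r) i (C i)
    rwa [update_idem, update_eq_self, update_self] at this

lemma wstep_update_le (hd : IsDist d) (r : X) (C : Fin k → X) (i : Fin k) :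
    wstep d w r (update C i r) ≤ w (update C i r) := by
  have := wstep_le (d := d) w r (update C i r) i
  rwa [update_idem, update_self, hd.refl, add_zero] at this

omit [NeZero k] in
/-- A matching which fixes a common point. -/
lemma exch_fix (hw : IsWork d w) (A B : Fin k → X) {a b : Fin k} (hab : A a = B b) :
    ∃ σ : Equiv.Perm (Fin k), σ a = b ∧ ∀ Q : Finset (Fin k),
      w (mix Q A (B ∘ σ)) + w (mix Qᶜ A (B ∘ σ)) ≤ w A + w B := by
  obtain ⟨π, hπ⟩ := hw.exch A B
  set c := π⁻¹ b with hc
  have hπc : π c = b := by simp [hc]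
  refine ⟨π * Equiv.swap a c, by simp [hπc], fun Q => ?_⟩
  set σ := π * Equiv.swap a c with hσ
  -- membership of `a` is made that of `c`
  set Q0 : Finset (Fin k) := if c ∈ Q then insert a Q else Q.erase a with hQ0
  have hval : ∀ i, i ≠ a → i ≠ c → σ i = π i := fun i h1 h2 => by
    simp [hσ, Equiv.swap_apply_of_ne_of_ne h1 h2]
  have hσa : σ a = b := by simp [hσ, hπc]
  have hσc : σ c = π a := by simp [hσ]
  have hmem : ∀ i, i ≠ a → (i ∈ Q0 ↔ i ∈ Q) := fun i h => by
    rw [hQ0]; split_ifs <;> simp [h]
  by_cases hQc : c ∈ Q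
  · have ha : a ∈ Q0 := by simp [hQ0, hQc]
    have e1 : mix Q A (B ∘ σ) = mix Q0 A (B ∘ π) := by
      funext i
      simp only [mix, comp_apply]
      by_cases hia : i = a
      · subst hia
        rw [if_pos ha, hσa]
        split_ifs <;> simp [hab]
      · by_cases hic : i = c
        · subst hic
          rw [if_pos hQc, if_pos ((hmem _ hia).2 hQc)]
        · simp only [hmem i hia, hval i hia hic]
    have e2 : mix Qᶜ A (B ∘ σ) = mix Q0ᶜ A (B ∘ π) ∘ Equiv.swap a c := by
      funext i
      simp only [mix, comp_apply, mem_compl]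
      by_cases hia : i = a
      · subst hia
        rw [Equiv.swap_apply_left, hσa, hπc]
        by_cases hic : c = i
        · subst hic
          simp [ha, hab]
        · simp only [hmem c hic, hQc, not_true_eq_false, if_false]
          split_ifs <;> simp [hab]
      · by_cases hic : i = c
        · subst hic
          rw [Equiv.swap_apply_right, hσc]
          simp [hQc, ha]
        · rw [Equiv.swap_apply_of_ne_of_ne hia hic]
          simp only [hmem i hia, hval i hia hic]
    rw [e1, e2, hw.perm]
    exact hπ Q0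
  · have ha : a ∉ Q0 := by simp [hQ0, hQc]
    have e1 : mix Qᶜ A (B ∘ σ) = mix Q0ᶜ A (B ∘ π) := by
      funext i
      simp only [mix, comp_apply, mem_compl]
      by_cases hia : i = a
      · subst hia
        rw [if_pos ha, hσa]
        split_ifs <;> simp [hab]
      · by_cases hic : i = c
        · subst hic
          rw [if_pos hQc, if_pos (fun h => hQc ((hmem _ hia).1 h))]
        · simp only [hmem i hia, hval i hia hic]
    have e2 : mix Q A (B ∘ σ) = mix Q0 A (B ∘ π) ∘ Equiv.swap a c := by
      funext i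
      simp only [mix, comp_apply]
      by_cases hia : i = a
      · subst hia
        rw [Equiv.swap_apply_left, hσa, hπc]
        by_cases hic : c = i
        · subst hic
          simp [ha, hab]
        · simp only [hmem c hic, hQc, if_false]
          split_ifs <;> simp [hab]
      · by_cases hic : i = c
        · subst hic
          rw [Equiv.swap_apply_right, hσc]
          simp [hQc, ha]
        · rw [Equiv.swap_apply_of_ne_of_ne hia hic]
          simp only [hmem i hia, hval i hia hic]
    rw [e1, e2, hw.perm]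
    exact hπ Q0

theorem wstep (hd : IsDist d) (hw : IsWork d w) (r : X) : IsWork d (Vale.P304.wstep d w r) where
  perm C σ := by
    have h : ∀ i, update (C ∘ σ) i r = update C (σ i) r ∘ σ := fun i => by
      rw [update_comp_equiv]; simp
    refine le_antisymm (le_inf' _ _ fun j _ => ?_) (le_inf' _ _ fun i _ => ?_)
    · refine (wstep_le w r (C ∘ σ) (σ⁻¹ j)).trans (le_of_eq ?_)
      rw [h, hw.perm]
      simp
    · refine (wstep_le w r C (σ i)).trans (le_of_eq ?_)
      rw [h, hw.perm, comp_apply]
  lip C i x := by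
    obtain ⟨j, hj⟩ := wstep_attained (d := d) w r C
    rw [hj]
    refine (wstep_le w r (update C i x) j).trans ?_
    by_cases h : j = i
    · subst h
      rw [update_idem, update_self]
      linarith [hd.tri r (C j) x]
    · rw [update_of_ne h, update_comm (Ne.symm h)]
      have := hw.lip (update C j r) i x
      rw [update_of_ne (Ne.symm h)] at this
      linarith
  exch A B := by
    obtain ⟨a, ha⟩ := wstep_attained (d := d) w r A
    obtain ⟨b, hb⟩ := wstep_attained (d := d) w r B
    obtain ⟨σ, hσ, hQ⟩ := hw.exch_fix (update A a r) (update B b r) (a := a) (b := b) (by simp)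
    refine ⟨σ, fun Q => ?_⟩
    rw [ha, hb]
    have hmix : ∀ P : Finset (Fin k), update (mix P A (B ∘ σ)) a r =
        mix P (update A a r) (update B b r ∘ σ) := fun P => by
      funext i
      by_cases hia : i = a
      · subst hia
        simp [mix, hσ]
      · have : σ i ≠ b := fun h => hia (σ.injective (h.trans hσ.symm))
        simp [mix, hia, this]
    refine (add_le_add (wstep_le w r _ a) (wstep_le w r _ a)).trans ?_
    rw [hmix, hmix]
    have := hQ Q
    by_cases hQa : a ∈ Q
    · simp only [mix, hQa, mem_compl, if_true, not_true_eq_false, if_false, comp_apply, hσ]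
      linarith
    · simp only [mix, hQa, mem_compl, if_false, not_false_eq_true, if_true, comp_apply, hσ]
      linarith
  nonneg C := (hw.nonneg C).trans (hw.le_wstep r C)

/-- A minimiser of `w` minus the distances to `r`. -/
def IsFar (d : X → X → ℝ) (w : (Fin k → X) → ℝ) (r : X) (A : Fin k → X) : Prop :=
  ∀ C, w A - ∑ j, d r (A j) ≤ w C - ∑ j, d r (C j)

omit [NeZero k] in
lemma sum_update (f : X → ℝ) (C : Fin k → X) (i : Fin k) (x : X) :
    ∑ j, f (update C i x j) = ∑ j, f (C j) - f (C i) + f x := by
  rw [← add_sum_erase _ _ (mem_univ i), ← add_sum_erase _ (fun j => f (C j)) (mem_univ i),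
    update_self, sum_congr rfl fun j hj => by rw [update_of_ne (mem_erase.1 hj).1]]
  ring

/-- A far configuration gains most from a request at `r`. -/
lemma far_gain (hw : IsWork d w) {r : X} {A : Fin k → X} (hA : IsFar d w r A) (C : Fin k → X) :
    Vale.P304.wstep d w r C + w A ≤ Vale.P304.wstep d w r A + w C := by
  obtain ⟨a, ha⟩ := wstep_attained (d := d) w r A
  obtain ⟨σ, hσ⟩ := hw.exch (update A a r) C
  have h := hσ {a}ᶜ
  rw [compl_compl] at h
  have e1 : mix ({a}ᶜ : Finset (Fin k)) (update A a r) (C ∘ σ) = update A a (C (σ a)) := by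
    funext i
    by_cases hi : i = a
    · subst hi; simp [mix]
    · simp [mix, hi]
  have e2 : mix ({a} : Finset (Fin k)) (update A a r) (C ∘ σ) = update C (σ a) r ∘ σ := by
    funext i
    by_cases hi : i = a
    · subst hi; simp [mix]
    · simp [mix, hi]
  rw [e1, e2, hw.perm] at h
  have h1 := hA (update A a (C (σ a)))
  rw [sum_update] at h1
  have h2 := wstep_le (d := d) w r C (σ a)
  linarith

/-- A far configuration stays far after a request at `r`. -/
lemma far_stays (hw : IsWork d w) {r : X} {A : Fin k → X} (hA : IsFar d w r A) :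
    IsFar d (Vale.P304.wstep d w r) r A := by
  intro C
  obtain ⟨c, hc⟩ := wstep_attained (d := d) w r C
  obtain ⟨σ, hσ⟩ := hw.exch A (update C c r)
  set a := σ⁻¹ c with ha
  have hσa : σ a = c := by simp [ha]
  have h := hσ {a}ᶜ
  rw [compl_compl] at h
  have e1 : mix ({a}ᶜ : Finset (Fin k)) A (update C c r ∘ σ) = update A a r := by
    funext i
    by_cases hi : i = a
    · subst hi; simp [mix, hσa]
    · simp [mix, hi]
  have e2 : mix ({a} : Finset (Fin k)) A (update C c r ∘ σ) = update C c (A a) ∘ σ := by
    funext i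
    by_cases hi : i = a
    · subst hi; simp [mix, hσa]
    · have : σ i ≠ c := fun h => hi (σ.injective (h.trans hσa.symm))
      simp [mix, hi, this]
  rw [e1, e2, hw.perm] at h
  have h1 := hA (update C c (A a))
  rw [sum_update] at h1
  have h2 := wstep_le (d := d) w r A a
  linarith

end IsWork

theorem isWork_workFn (hd : IsDist d) (s : Fin k → X) (l : List X) : IsWork d (workFn d s l) := by
  induction l using List.reverseRecOn with
  | nil => exact isWork_matchDist hd s
  | append_singleton l r ih =>
    rw [workFn, List.foldl_append]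
    exact ih.wstep hd r

lemma workFn_append (s : Fin k → X) (l : List X) (r : X) :
    workFn d s (l ++ [r]) = wstep d (workFn d s l) r := by
  rw [workFn, List.foldl_append]
  rfl

/-! ### The extended cost -/

section extended

variable [Fintype X] [Nonempty X]

/-- The potential of Koutsoupias and Papadimitriou. -/
def kpPot (d : X → X → ℝ) (w : (Fin k → X) → ℝ) : ℝ :=
  univ.inf' univ_nonempty fun p : (Fin k → X) × (Fin k → Fin k → X) =>
    (k : ℝ) * w p.1 + ∑ i, (w (p.2 i) - ∑ j, d (p.1 i) (p.2 i j))

/-- The largest increase of the work function. -/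
def extCost (d : X → X → ℝ) (w : (Fin k → X) → ℝ) (r : X) : ℝ :=
  univ.sup' univ_nonempty fun C : Fin k → X => wstep d w r C - w C

lemma le_extCost (w : (Fin k → X) → ℝ) (r : X) (C : Fin k → X) :
    wstep d w r C - w C ≤ extCost d w r :=
  le_sup' (fun C : Fin k → X => wstep d w r C - w C) (mem_univ C)

lemma extCost_nonneg {w : (Fin k → X) → ℝ} (hw : IsWork d w) (r : X) : 0 ≤ extCost d w r :=
  (sub_nonneg.2 (hw.le_wstep r (fun _ => Classical.arbitrary X))).trans (le_extCost w r _)

theorem kpPot_step (hd : IsDist d) {w : (Fin k → X) → ℝ} (hw : IsWork d w) (r : X) :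
    kpPot d w + extCost d w r ≤ kpPot d (wstep d w r) := by
  refine le_inf' _ _ fun p _ => ?_
  obtain ⟨U, B⟩ := p
  obtain ⟨a, ha⟩ := wstep_attained (d := d) w r U
  obtain ⟨A, -, hA'⟩ := exists_min_image univ (fun C : Fin k → X => w C - ∑ j, d r (C j))
    univ_nonempty
  have hA : IsWork.IsFar d w r A := fun C => hA' C (mem_univ C)
  have hext : extCost d w r ≤ wstep d w r A - w A :=
    sup'_le _ _ fun C _ => by linarith [hw.far_gain hA C]
  have hpot : kpPot d w ≤ (k : ℝ) * w (update U a r) +
      ∑ i, (w (update B a A i) - ∑ j, d (update U a r i) (update B a A i j)) :=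
    inf'_le (fun p : (Fin k → X) × (Fin k → Fin k → X) =>
      (k : ℝ) * w p.1 + ∑ i, (w (p.2 i) - ∑ j, d (p.1 i) (p.2 i j)))
      (mem_univ (update U a r, update B a A))
  have hstay := hw.far_stays hA (B a)
  have htri : ∑ j, d (U a) (B a j) ≤ (k : ℝ) * d r (U a) + ∑ j, d r (B a j) := by
    have : (k : ℝ) * d r (U a) = ∑ _j : Fin k, d r (U a) := by simp
    rw [this, ← sum_add_distrib]
    refine sum_le_sum fun j _ => ?_
    linarith [hd.tri (U a) r (B a j), hd.symm (U a) r]
  rw [← add_sum_erase _ _ (mem_univ a), update_self, update_self] at hpot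
  have hrest : ∑ i ∈ univ.erase a, (w (update B a A i) -
      ∑ j, d (update U a r i) (update B a A i j)) ≤
      ∑ i ∈ univ.erase a, (wstep d w r (B i) - ∑ j, d (U i) (B i j)) := by
    refine sum_le_sum fun i hi => ?_
    rw [update_of_ne (mem_erase.1 hi).1, update_of_ne (mem_erase.1 hi).1]
    linarith [hw.le_wstep r (B i)]
  simp only
  rw [ha, ← add_sum_erase _ _ (mem_univ a), mul_add]
  linarith

omit [NeZero k] in
lemma kpPot_le (hd : IsDist d) (w : (Fin k → X) → ℝ) (C : Fin k → X) :
    kpPot d w ≤ 2 * k * w C := by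
  refine (inf'_le _ (mem_univ (C, fun _ => C))).trans ?_
  simp only [sum_sub_distrib, sum_const, card_univ, Fintype.card_fin, nsmul_eq_mul]
  have : 0 ≤ ∑ i, ∑ j, d (C i) (C j) := sum_nonneg fun i _ => sum_nonneg fun j _ => hd.nonneg _ _
  linarith

omit [NeZero k] in
lemma le_kpPot {w : (Fin k → X) → ℝ} (hw : IsWork d w) {D : ℝ} (hD : ∀ x y, d x y ≤ D) :
    -((k : ℝ) * k * D) ≤ kpPot d w := by
  refine le_inf' _ _ fun p _ => ?_
  have h1 : ∑ i, ∑ j, d (p.1 i) (p.2 i j) ≤ (k : ℝ) * k * D := by
    refine (sum_le_sum fun i _ => sum_le_sum fun j _ => hD _ _).trans (le_of_eq ?_)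
    simp [mul_assoc]
  have h2 : (0 : ℝ) ≤ (k : ℝ) * w p.1 := mul_nonneg (Nat.cast_nonneg _) (hw.nonneg _)
  have h3 : 0 ≤ ∑ i, w (p.2 i) := sum_nonneg fun i _ => hw.nonneg _
  rw [sum_sub_distrib]
  linarith

end extended

end

end Vale.P304
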